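import Vale.Agent.N234N.Lin
import Vale.Agent.N234.Main
import Vale.Agent.N234.Vol

/-!
# P234: calculus of the cost in normal coordinates
-/

section
set_option maxSynthPendingDepth 3
set_option linter.unusedSectionVars false

open Bundle Manifold Set Filter MeasureTheory Module Metric
open scoped ContDiff Manifold Topology ENNReal

namespace Vale.Agent.N234N

open Vale.Agent.P234 Vale.Agent.N234

variable {E : Type*} [NormedAddCommGroup E] [NormedSpace ℝ E] [FiniteDimensional ℝ E]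
  {M : Type*} [MetricSpace M] [ChartedSpace E M]
  [RiemannianBundle (fun x : M => TangentSpace 𝓘(ℝ, E) x)]
  [IsManifold 𝓘(ℝ, E) ∞ M]
  [IsContMDiffRiemannianBundle 𝓘(ℝ, E) ∞ E (fun x : M => TangentSpace 𝓘(ℝ, E) x)]
  [CompactSpace M]
  {e : ∀ x : M, TangentSpace 𝓘(ℝ, E) x → M}

/-- The mountain with focus `exp_o ζ`, relative to the one with focus `o`, at `exp_o q`. -/
noncomputable def mt (e : ∀ x : M, TangentSpace 𝓘(ℝ, E) x → M) (o : M)
    (q ζ : TangentSpace 𝓘(ℝ, E) o) : ℝ := cost (e o q) o - cost (e o q) (e o ζ)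

/-- `Φ q ζ` is the gradient in `q` of `mt`, and is `δ`-close to the identity in `ζ`. -/
structure Mix (e : ∀ x : M, TangentSpace 𝓘(ℝ, E) x → M) (o : M)
    (Q : Set (TangentSpace 𝓘(ℝ, E) o)) (δ r : ℝ)
    (Φ : TangentSpace 𝓘(ℝ, E) o → TangentSpace 𝓘(ℝ, E) o → TangentSpace 𝓘(ℝ, E) o) : Prop where
  pos : 0 < r
  smooth : ∀ q ∈ Q, ∀ ζ, ‖ζ‖ < r → SmoothAt E (e o q) (e o ζ)
  deriv : ∀ q ∈ Q, ∀ ζ, ‖ζ‖ < r → HasFDerivAt (fun q => mt e o q ζ) (innerSL ℝ (Φ q ζ)) q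
  zero : ∀ q ∈ Q, Φ q 0 = 0
  approx : ∀ q ∈ Q, ∀ ζ ξ, ‖ζ‖ < r → ‖ξ‖ < r → ‖Φ q ζ - Φ q ξ - (ζ - ξ)‖ ≤ δ * ‖ζ - ξ‖
  cont : ContinuousOn (fun p : TangentSpace 𝓘(ℝ, E) o × TangentSpace 𝓘(ℝ, E) o => Φ p.1 p.2)
    (Q ×ˢ ball 0 r)

end Vale.Agent.N234N

end

section
set_option maxSynthPendingDepth 3
set_option linter.unusedSectionVars false

open Bundle Manifold Set Filter MeasureTheory Module Metric
open scoped ContDiff Manifold Topology ENNReal

namespace Vale.Agent.N234N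

open Vale.Agent.P234 Vale.Agent.N234

section Cabs

variable {V : Type*} [NormedAddCommGroup V] [InnerProductSpace ℝ V] [CompleteSpace V]

/-- gradient in the first variable -/
noncomputable def Cgrad (G : V × V → ℝ) (p : V × V) : V :=
  (InnerProductSpace.toDual ℝ V).symm (fderiv ℝ (fun a => G (a, p.2)) p.1)

lemma Cgrad_inner (G : V × V → ℝ) (p : V × V) :
    innerSL ℝ (Cgrad G p) = fderiv ℝ (fun a => G (a, p.2)) p.1 := by
  ext ξ
  simp [Cgrad]

lemma Cgrad_smooth {G : V × V → ℝ} {p : V × V} (h : ContDiffAt ℝ ∞ G p) :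
    ContDiffAt ℝ ∞ (Cgrad G) p := by
  have h4 : ContDiff ℝ ∞ (fun l : V →L[ℝ] ℝ => (InnerProductSpace.toDual ℝ V).symm l) :=
    LinearIsometryEquiv.contDiff _
  exact h4.contDiffAt.comp p (contDiffAt_fderiv_fst (a := p.1) (b := p.2) h)

lemma Cgrad_mixed {G : V × V → ℝ} {q : V} (h : ContDiffAt ℝ ∞ G (q, 0))
    (h0 : ∀ᶠ a in 𝓝 q, HasFDerivAt (fun ζ => G (a, ζ)) (innerSL ℝ a) 0) :
    (fderiv ℝ (Cgrad G) (q, 0)).comp (ContinuousLinearMap.inr ℝ V V) =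
      ContinuousLinearMap.id ℝ V := by
  have h2 : ContDiffAt ℝ 2 G (q, 0) := h.of_le two_le_infty
  have hH := hasFDerivAt_fderiv h2
  have hev := eventually_differentiableAt h2
  have hD : HasFDerivAt (Cgrad G) (fderiv ℝ (Cgrad G) (q, 0)) (q, 0) :=
    ((Cgrad_smooth h).differentiableAt (by simp)).hasFDerivAt
  ext μ
  refine ext_inner_left ℝ fun ξ => ?_
  have a1 : HasFDerivAt (fun p => fderiv ℝ G p (ξ, 0))
      ((ContinuousLinearMap.apply ℝ ℝ ((ξ, 0) : V × V)).comp (hess G (q, 0))) (q, 0) :=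
    (ContinuousLinearMap.apply ℝ ℝ ((ξ, 0) : V × V)).hasFDerivAt.comp (q, 0) hH
  have a2 : HasFDerivAt (fun p => inner ℝ ξ (Cgrad G p))
      ((innerSL ℝ ξ).comp (fderiv ℝ (Cgrad G) (q, 0))) (q, 0) :=
    (innerSL ℝ ξ).hasFDerivAt.comp (q, 0) hD
  have a3 : (fun p => inner ℝ ξ (Cgrad G p)) =ᶠ[𝓝 (q, 0)] fun p => fderiv ℝ G p (ξ, 0) := by
    filter_upwards [hev] with p hp
    have h8 : HasFDerivAt (fun a : V => G (a, p.2))
        ((fderiv ℝ G p).comp (ContinuousLinearMap.inl ℝ V V)) p.1 :=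
      HasFDerivAt.comp p.1 hp.hasFDerivAt (hasFDerivAt_prodMk_left p.1 p.2)
    have h9 := congrArg (fun L => L ξ) ((Cgrad_inner G p).trans h8.fderiv)
    rw [real_inner_comm]
    simpa using h9
  have a4 := congrArg (fun L => L (0, μ)) (a2.unique (a1.congr_of_eventuallyEq a3))
  have b1 : HasFDerivAt (fun a : V => fderiv ℝ G (a, 0) (0, μ))
      ((ContinuousLinearMap.apply ℝ ℝ ((0, μ) : V × V)).comp
        ((hess G (q, 0)).comp (ContinuousLinearMap.inl ℝ V V))) q :=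
    (ContinuousLinearMap.apply ℝ ℝ ((0, μ) : V × V)).hasFDerivAt.comp q
      (HasFDerivAt.comp (f := fun a : V => ((a, 0) : V × V)) q hH (hasFDerivAt_prodMk_left q 0))
  have b2 : (fun a : V => innerSL ℝ μ a) =ᶠ[𝓝 q] fun a => fderiv ℝ G (a, 0) (0, μ) := by
    have hc : Tendsto (fun a : V => ((a, 0) : V × V)) (𝓝 q) (𝓝 (q, 0)) :=
      (continuous_id.prodMk continuous_const).tendsto q
    filter_upwards [hc.eventually hev, h0] with a ha ha0
    have h8 : HasFDerivAt (fun ζ : V => G (a, ζ))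
        ((fderiv ℝ G (a, 0)).comp (ContinuousLinearMap.inr ℝ V V)) 0 :=
      HasFDerivAt.comp (f := fun ζ : V => ((a, ζ) : V × V)) 0 ha.hasFDerivAt
        (hasFDerivAt_prodMk_right a 0)
    have h9 := congrArg (fun L => L μ) (ha0.unique h8)
    rw [innerSL_apply_apply, real_inner_comm]
    simpa using h9
  have b3 := congrArg (fun L => L ξ)
    ((innerSL ℝ μ).hasFDerivAt.unique (b1.congr_of_eventuallyEq b2))
  have s := hess_symm h2 ((0, μ) : V × V) (ξ, 0)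
  simp only [ContinuousLinearMap.comp_apply, innerSL_apply_apply, ContinuousLinearMap.apply_apply,
    ContinuousLinearMap.inl_apply, ContinuousLinearMap.inr_apply,
    ContinuousLinearMap.id_apply] at a4 b3 ⊢
  rw [a4, s, ← b3, real_inner_comm]

lemma Cgrad_tube {G : V × V → ℝ} {P : V × V → Prop} {Q : Set V} (hQ : IsCompact Q)
    (hP : ∀ q ∈ Q, ∀ᶠ p in 𝓝 (q, (0 : V)), P p) (hG : ∀ p, P p → ContDiffAt ℝ ∞ G p)
    (h0 : ∀ q ∈ Q, ∀ᶠ a in 𝓝 q, HasFDerivAt (fun ζ => G (a, ζ)) (innerSL ℝ a) 0)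
    {δ : ℝ} (hδ : 0 < δ) :
    ∃ r > 0, (∀ q ∈ Q, ∀ ζ, ‖ζ‖ < r → P (q, ζ)) ∧ ∀ q ∈ Q, ∀ ζ ξ, ‖ζ‖ < r → ‖ξ‖ < r →
      ‖Cgrad G (q, ζ) - Cgrad G (q, ξ) - (ζ - ξ)‖ ≤ δ * ‖ζ - ξ‖ := by
  have key : ∀ᶠ ζ in 𝓝 (0 : V), ∀ q ∈ Q, P (q, ζ) ∧
      ‖(fderiv ℝ (Cgrad G) (q, ζ)).comp (ContinuousLinearMap.inr ℝ V V) -
        ContinuousLinearMap.id ℝ V‖ < δ := by
    refine hQ.eventually_forall_of_forall_eventually fun q hq => ?_
    have hs := hG _ (hP q hq).self_of_nhds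
    have c1 : ContinuousAt (fderiv ℝ (Cgrad G)) (q, 0) :=
      ((Cgrad_smooth hs).fderiv_right (m := 0) (by simp)).continuousAt
    have c2 : ContinuousAt (fun p : V × V => ‖(fderiv ℝ (Cgrad G) p).comp
        (ContinuousLinearMap.inr ℝ V V) - ContinuousLinearMap.id ℝ V‖) (q, 0) :=
      ((c1.clm_comp continuousAt_const).sub continuousAt_const).norm
    have c3 := c2.eventually_lt (g := fun _ => δ) continuousAt_const
      (by rw [Cgrad_mixed hs (h0 q hq), sub_self, norm_zero]; exact hδ)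
    have c4 : Tendsto (fun z : V × V => (z.2, z.1)) (𝓝 (0, q)) (𝓝 (q, 0)) :=
      (continuous_snd.prodMk continuous_fst).tendsto (0, q)
    exact c4.eventually ((hP q hq).and c3)
  obtain ⟨r, hr, h⟩ := Metric.eventually_nhds_iff.1 key
  simp only [dist_zero_right] at h
  refine ⟨r, hr, fun q hq ζ hζ => (h hζ q hq).1, fun q hq ζ ξ hζ hξ => ?_⟩
  refine Convex.norm_image_sub_le_of_norm_hasFDerivWithin_le' (𝕜 := ℝ) (s := ball (0 : V) r)
    (f := fun ζ => Cgrad G (q, ζ)) (φ := ContinuousLinearMap.id ℝ V)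
    (f' := fun ζ => (fderiv ℝ (Cgrad G) (q, ζ)).comp (ContinuousLinearMap.inr ℝ V V))
    (fun x hx => ?_) (fun x hx => (h (mem_ball_zero_iff.1 hx) q hq).2.le) (convex_ball 0 r)
    (mem_ball_zero_iff.2 hξ) (mem_ball_zero_iff.2 hζ)
  have h1 := ((Cgrad_smooth (hG _ (h (mem_ball_zero_iff.1 hx) q hq).1)).differentiableAt
    (by simp)).hasFDerivAt
  exact (HasFDerivAt.comp (f := fun ζ : V => ((q, ζ) : V × V)) x h1
    (hasFDerivAt_prodMk_right q x)).hasFDerivWithinAt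

end Cabs

variable {E : Type*} [NormedAddCommGroup E] [NormedSpace ℝ E] [FiniteDimensional ℝ E]
  {M : Type*} [MetricSpace M] [ChartedSpace E M]
  [RiemannianBundle (fun x : M => TangentSpace 𝓘(ℝ, E) x)]
  [IsManifold 𝓘(ℝ, E) ∞ M]
  [IsContMDiffRiemannianBundle 𝓘(ℝ, E) ∞ E (fun x : M => TangentSpace 𝓘(ℝ, E) x)]
  [CompactSpace M]
  {e : ∀ x : M, TangentSpace 𝓘(ℝ, E) x → M}

theorem exists_mix (F : Facts e) (o : M) {Q : Set (TangentSpace 𝓘(ℝ, E) o)} (hQ : IsCompact Q)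
    (hQI : Q ⊆ injDomain e o) {δ : ℝ} (hδ : 0 < δ) : ∃ r Φ, Mix e o Q δ r Φ := by
  have he := F.isExp
  have : CompleteSpace (TangentSpace 𝓘(ℝ, E) o) := FiniteDimensional.complete ℝ _
  have hc := (contMDiff_exp_fiber he o).continuous
  let G : TangentSpace 𝓘(ℝ, E) o × TangentSpace 𝓘(ℝ, E) o → ℝ := fun p => mt e o p.1 p.2
  let P : TangentSpace 𝓘(ℝ, E) o × TangentSpace 𝓘(ℝ, E) o → Prop := fun p =>
    SmoothAt E (e o p.1) (e o p.2) ∧ SmoothAt E (e o p.1) (e o 0)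
  have hP : ∀ q ∈ Q, ∀ᶠ p in 𝓝 (q, (0 : TangentSpace 𝓘(ℝ, E) o)), P p := by
    intro q hq
    have hs : SmoothAt E (e o q) (e o 0) := by
      rw [he.map_zero]
      exact (F.smooth_cost o q (hQI hq)).symm
    have t1 : Tendsto (fun p : TangentSpace 𝓘(ℝ, E) o × TangentSpace 𝓘(ℝ, E) o =>
        (e o p.1, e o p.2)) (𝓝 (q, 0)) (𝓝 (e o q, e o 0)) :=
      ((hc.comp continuous_fst).prodMk (hc.comp continuous_snd)).tendsto (q, 0)
    have t2 : Tendsto (fun p : TangentSpace 𝓘(ℝ, E) o × TangentSpace 𝓘(ℝ, E) o =>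
        (e o p.1, e o 0)) (𝓝 (q, 0)) (𝓝 (e o q, e o 0)) :=
      ((hc.comp continuous_fst).prodMk continuous_const).tendsto (q, 0)
    exact (t1.eventually hs.eventually).and (t2.eventually hs.eventually)
  have hG : ∀ p, P p → ContDiffAt ℝ ∞ G p := by
    intro p hp
    have h1 := hp.1.coord he
    have h2 := hp.2.coord he
    have h3 : ContDiffAt ℝ ∞ (fun p : TangentSpace 𝓘(ℝ, E) o × TangentSpace 𝓘(ℝ, E) o =>
        (p.1, (0 : TangentSpace 𝓘(ℝ, E) o))) p := contDiffAt_fst.prodMk contDiffAt_const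
    have h4 := ContDiffAt.comp p h2 h3
    refine (h4.sub h1).congr_of_eventuallyEq (Eventually.of_forall fun z => ?_)
    simp only [G, mt, Function.comp_apply, he.map_zero]
  have h0 : ∀ q ∈ Q, ∀ᶠ a in 𝓝 q, HasFDerivAt (fun ζ => G (a, ζ)) (innerSL ℝ a) 0 := by
    intro q hq
    filter_upwards [(F.isOpen_injDomain o).mem_nhds (hQI hq)] with a ha
    have h1 := (hasFDerivAt_cost_zero he o a (injDomain_subset_segMin he o ha)
      (F.smooth_cost o a ha)).const_sub (cost (e o a) o)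
    rw [neg_neg] at h1
    refine h1.congr_of_eventuallyEq (Eventually.of_forall fun ζ => ?_)
    simp only [G, mt]
    rw [cost_comm (e o ζ)]
  obtain ⟨r, hr, hs, ha⟩ := Cgrad_tube hQ hP hG h0 hδ
  refine ⟨r, fun q ζ => Cgrad G (q, ζ), hr, fun q hq ζ hζ => (hs q hq ζ hζ).1,
    fun q hq ζ hζ => ?_, fun q _ => ?_, ha, fun p hp => ?_⟩
  · rw [Cgrad_inner]
    have h1 : ContDiffAt ℝ ∞ (fun a : TangentSpace 𝓘(ℝ, E) o => (a, ζ)) q :=
      contDiffAt_id.prodMk contDiffAt_const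
    exact ((ContDiffAt.comp q (hG _ (hs q hq ζ hζ)) h1).differentiableAt (by simp)).hasFDerivAt
  · have h1 : (fun a => G (a, 0)) = fun _ => 0 := by
      funext a
      simp only [G, mt, he.map_zero, sub_self]
    simp only [Cgrad, h1, fderiv_fun_const, Pi.zero_apply, map_zero]
  · exact (Cgrad_smooth (hG p (hs p.1 hp.1 p.2
      (mem_ball_zero_iff.1 hp.2)))).continuousAt.continuousWithinAt

theorem Mix.vec (F : Facts e) {o : M} {Q : Set (TangentSpace 𝓘(ℝ, E) o)} {δ r : ℝ}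
    {Φ : TangentSpace 𝓘(ℝ, E) o → TangentSpace 𝓘(ℝ, E) o → TangentSpace 𝓘(ℝ, E) o}
    (h : Mix e o Q δ r Φ) {q ζ : TangentSpace 𝓘(ℝ, E) o} (hq : q ∈ Q) (hζ : ‖ζ‖ < r)
    {p p₁ : TangentSpace 𝓘(ℝ, E) (e o q)} (hp : p ∈ segMin e (e o q)) (hpo : e (e o q) p = o)
    (hp₁ : p₁ ∈ segMin e (e o q)) (hpζ : e (e o q) p₁ = e o ζ) (v : TangentSpace 𝓘(ℝ, E) o) :
    inner ℝ (Φ q ζ) v =
      inner ℝ (p₁ - p) (mfderiv 𝓘(ℝ, TangentSpace 𝓘(ℝ, E) o) 𝓘(ℝ, E) (e o) q v) := by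
  have he := F.isExp
  have s0 := h.smooth q hq 0 (by simpa using h.pos)
  rw [he.map_zero] at s0
  have d0 := hasFDerivAt_cost he o q p hp (by rw [hpo]; exact s0)
  have d1 := hasFDerivAt_cost he o q p₁ hp₁ (by rw [hpζ]; exact h.smooth q hq ζ hζ)
  rw [hpζ] at d1
  have d2 := d0.sub d1
  have e1 : ((fun a' : TangentSpace 𝓘(ℝ, E) o => cost (e o a') (e (e o q) p)) -
      fun a' : TangentSpace 𝓘(ℝ, E) o => cost (e o a') (e o ζ)) = fun q => mt e o q ζ := by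
    funext a
    simp only [mt, Pi.sub_apply, hpo]
  rw [e1] at d2
  have h3 : inner ℝ (Φ q ζ) v =
      -inner ℝ p (mfderiv 𝓘(ℝ, TangentSpace 𝓘(ℝ, E) o) 𝓘(ℝ, E) (e o) q v) -
        -inner ℝ p₁ (mfderiv 𝓘(ℝ, TangentSpace 𝓘(ℝ, E) o) 𝓘(ℝ, E) (e o) q v) :=
    congrArg (fun L => L v) ((h.deriv q hq ζ hζ).unique d2)
  rw [h3, inner_sub_left]
  ring

theorem mfderiv_surj (F : Facts e) {o : M} {q : TangentSpace 𝓘(ℝ, E) o} (hq : q ∈ injDomain e o) :
    Function.Surjective (mfderiv 𝓘(ℝ, TangentSpace 𝓘(ℝ, E) o) 𝓘(ℝ, E) (e o) q) := by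
  obtain ⟨L, h1, h2, h3, -⟩ := F.smoothLog hq
  have d1 := (h1.mdifferentiableAt (by simp)).hasMFDerivAt
  have d2 : HasMFDerivAt 𝓘(ℝ, TangentSpace 𝓘(ℝ, E) o) 𝓘(ℝ, E) (e o) (L (e o q))
      (mfderiv 𝓘(ℝ, TangentSpace 𝓘(ℝ, E) o) 𝓘(ℝ, E) (e o) (L (e o q))) :=
    ((contMDiff_exp_fiber F.isExp o).mdifferentiable (by simp) _).hasMFDerivAt
  have d3 := (d2.comp (e o q) d1).mfderiv
  have d4 : (e o ∘ L) =ᶠ[𝓝 (e o q)] id := h3.mono fun y hy => hy.2
  rw [d4.mfderiv_eq, mfderiv_id] at d3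
  have d5 : Function.Surjective
      (mfderiv 𝓘(ℝ, TangentSpace 𝓘(ℝ, E) o) 𝓘(ℝ, E) (e o) (L (e o q))) := fun w =>
    ⟨_, (congrArg (fun T => T w) d3).symm⟩
  rwa [h2] at d5

end Vale.Agent.N234N

end

section
set_option maxSynthPendingDepth 3
set_option linter.unusedSectionVars false

open Bundle Manifold Set Filter MeasureTheory Module Metric
open scoped ContDiff Manifold Topology ENNReal

namespace Vale.Agent.N234N

open Vale.Agent.P234 Vale.Agent.N234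

theorem T_surj {V : Type*} [NormedAddCommGroup V] [NormedSpace ℝ V] [CompleteSpace V]
    {f : V → V} {r δ : ℝ} (hr : 0 < r) (hδ : δ ≤ 1 / 2) (h0 : f 0 = 0)
    (h : ∀ ζ ξ, ‖ζ‖ < r → ‖ξ‖ < r → ‖f ζ - f ξ - (ζ - ξ)‖ ≤ δ * ‖ζ - ξ‖) {ξ : V}
    (hξ : ‖ξ‖ ≤ r / 4) : ∃ ζ, ‖ζ‖ ≤ r / 2 ∧ f ζ = ξ := by
  have a : ApproximatesLinearOn f (ContinuousLinearMap.id ℝ V) (ball 0 r) (1 / 2) := by
    intro x hx y hy
    refine (h x y (mem_ball_zero_iff.1 hx) (mem_ball_zero_iff.1 hy)).trans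
      (mul_le_mul_of_nonneg_right ?_ (norm_nonneg _))
    simpa using hδ
  obtain ⟨ζ, h1, h2⟩ := a.surjOn_closedBall_of_nonlinearRightInverse
    ⟨id, 1, fun y => by simp, fun _ => rfl⟩ (b := 0) (half_pos hr).le
    (closedBall_subset_ball (half_lt_self hr)) (show ξ ∈ _ by
      rw [h0, mem_closedBall_zero_iff]
      refine hξ.trans (le_of_eq ?_)
      push_cast
      ring)
  exact ⟨ζ, mem_closedBall_zero_iff.1 h1, h2⟩

variable {E : Type*} [NormedAddCommGroup E] [NormedSpace ℝ E] [FiniteDimensional ℝ E]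
  {M : Type*} [MetricSpace M] [ChartedSpace E M]
  [RiemannianBundle (fun x : M => TangentSpace 𝓘(ℝ, E) x)]
  [IsManifold 𝓘(ℝ, E) ∞ M]
  [IsContMDiffRiemannianBundle 𝓘(ℝ, E) ∞ E (fun x : M => TangentSpace 𝓘(ℝ, E) x)]
  [CompactSpace M]
  {e : ∀ x : M, TangentSpace 𝓘(ℝ, E) x → M}

set_option backward.isDefEq.respectTransparency false in
theorem Mix.tilt (F : Facts e) (hW : WeakMTW e) {o : M} {Q : Set (TangentSpace 𝓘(ℝ, E) o)}
    {δ r : ℝ} {Φ : TangentSpace 𝓘(ℝ, E) o → TangentSpace 𝓘(ℝ, E) o → TangentSpace 𝓘(ℝ, E) o}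
    (h : Mix e o Q δ r Φ) (hδ : δ ≤ 1 / 2) {φ : M → ℝ} (hφ : CConvex φ)
    {q ξ : TangentSpace 𝓘(ℝ, E) o} (hq : q ∈ Q) (hqI : q ∈ injDomain e o) (hξ : ‖ξ‖ ≤ r / 4)
    {g : TangentSpace 𝓘(ℝ, E) o → ℝ} (hg : HasFDerivAt g (innerSL ℝ ξ) q)
    (hmin : IsLocalMin (fun u => φ (e o u) + cost (e o u) o - g u) q) :
    ∃ ζ, ‖ζ‖ ≤ r / 2 ∧ Φ q ζ = ξ ∧ e o ζ ∈ cSubdiff φ (e o q) := by
  have he := F.isExp
  have : CompleteSpace (TangentSpace 𝓘(ℝ, E) o) := FiniteDimensional.complete ℝ _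
  obtain ⟨ζ, h1, h2⟩ := T_surj h.pos hδ (h.zero q hq) (h.approx q hq) hξ
  have hζ : ‖ζ‖ < r := h1.trans_lt (half_lt_self h.pos)
  refine ⟨ζ, h1, h2, ?_⟩
  obtain ⟨p, hp, hd⟩ := F.hopfRinow (e o q) (e o ζ)
  have hps : p ∈ segMin e (e o q) := by
    show dist _ _ = _
    rw [hp, hd]
  suffices k : p ∈ subgrad e φ (e o q) by
    rw [Reg.subgrad_eq F hW hφ] at k
    exact hp ▸ k.2
  obtain ⟨L, L1, L2, L3, -⟩ := F.smoothLog hqI
  have x0 : e (e o q) 0 = e o q := he.map_zero _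
  have cx := contMDiff_exp_fiber he (e o q)
  have dA : DifferentiableAt ℝ (fun a => L (e (e o q) a)) 0 := by
    have := ContMDiffAt.comp (0 : TangentSpace 𝓘(ℝ, E) (e o q)) (x0.symm ▸ L1) (cx 0)
    exact this.contDiffAt.differentiableAt (by simp)
  have A0 : L (e (e o q) 0) = q := by rw [x0, L2]
  have dk : HasFDerivAt (fun u => g u - mt e o u ζ) (innerSL ℝ ξ - innerSL ℝ (Φ q ζ))
      (L (e (e o q) 0)) := by
    rw [A0]
    exact hg.sub (h.deriv q hq ζ hζ)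
  rw [h2, sub_self] at dk
  have d1 := HasFDerivAt.comp (f := fun a => L (e (e o q) a)) 0 dk dA.hasFDerivAt
  have d2 := hasFDerivAt_cost_zero he (e o q) p hps (by rw [hp]; exact h.smooth q hq ζ hζ)
  have d3 := d1.sub d2
  rw [ContinuousLinearMap.zero_comp, zero_sub, neg_neg, hp] at d3
  have t1 : Tendsto (e (e o q)) (𝓝 0) (𝓝 (e o q)) := by
    have := cx.continuous.tendsto 0
    rwa [x0] at this
  have t2 : Tendsto (fun a => L (e (e o q) a)) (𝓝 0) (𝓝 q) := by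
    have := dA.continuousAt.tendsto
    rwa [A0] at this
  intro ε hε
  filter_upwards [d3.isLittleO.def hε, t1.eventually L3, t2.eventually hmin] with a a1 a2 a3
  simp only [Function.comp, Pi.sub_apply, mt, x0, L2, a2.2, sub_zero,
    innerSL_apply_apply, Real.norm_eq_abs] at a1 a3
  linarith [(abs_le.1 a1).1]

end Vale.Agent.N234N

end

section
set_option maxSynthPendingDepth 3
set_option linter.unusedSectionVars false

open Bundle Manifold Set Filter MeasureTheory Module Metric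
open scoped ContDiff Manifold Topology ENNReal

namespace Vale.Agent.N234N

open Vale.Agent.P234 Vale.Agent.N234

variable {E : Type*} [NormedAddCommGroup E] [NormedSpace ℝ E] [FiniteDimensional ℝ E]
  {M : Type*} [MetricSpace M] [ChartedSpace E M]
  [RiemannianBundle (fun x : M => TangentSpace 𝓘(ℝ, E) x)]
  [IsManifold 𝓘(ℝ, E) ∞ M]
  [IsContMDiffRiemannianBundle 𝓘(ℝ, E) ∞ E (fun x : M => TangentSpace 𝓘(ℝ, E) x)]
  [CompactSpace M]
  {e : ∀ x : M, TangentSpace 𝓘(ℝ, E) x → M}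

set_option backward.isDefEq.respectTransparency false in
/-- `exp_o` near `v`, read in normal coordinates at `exp_o v` -/
theorem G_coord (F : Facts e) (o : M) (v : TangentSpace 𝓘(ℝ, E) o) :
    ∃ G : TangentSpace 𝓘(ℝ, E) o → TangentSpace 𝓘(ℝ, E) (e o v), ContDiffAt ℝ ∞ G v ∧ G v = 0 ∧
      (∀ᶠ a in 𝓝 v, e (e o v) (G a) = e o a) ∧ ∀ a b, e o a = e o b → G a = G b := by
  have he := F.isExp
  have x0 : e (e o v) 0 = e o v := he.map_zero _
  obtain ⟨L, L1, L2, L3, -⟩ := F.smoothLog (z := e o v) (v := 0)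
    ⟨2, one_lt_two, by rw [smul_zero, x0, dist_self, norm_zero, mul_zero]⟩
  rw [x0] at L1 L2 L3
  have cx := contMDiff_exp_fiber he o
  exact ⟨fun a => L (e o a), (ContMDiffAt.comp v L1 (cx v)).contDiffAt, L2,
    ((cx.continuous.tendsto v).eventually L3).mono fun _ h => h.2, fun _ _ h => congrArg L h⟩

theorem exp_lip (F : Facts e) (o : M) (R : ℝ) : ∃ K ≥ 0, ∀ a b : TangentSpace 𝓘(ℝ, E) o,
    ‖a‖ ≤ R → ‖b‖ ≤ R → dist (e o a) (e o b) ≤ K * ‖a - b‖ := by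
  have : ProperSpace (TangentSpace 𝓘(ℝ, E) o) := FiniteDimensional.proper_real _
  have h : LocallyLipschitzOn (closedBall 0 R) (e o) := by
    intro v _
    obtain ⟨G, G1, G2, G3, -⟩ := G_coord F o v
    obtain ⟨K, t, ht, hK⟩ := (G1.of_le (m := 1) (by simp)).exists_lipschitzOnWith
    obtain ⟨ρ, hρ, h⟩ := P231.exp_almost_isometry F (e o v) (ε := 1) one_pos
    have G4 : ∀ᶠ a in 𝓝 v, ‖G a‖ < ρ :=
      G1.continuousAt.norm.eventually_lt_const (by simpa only [G2, norm_zero] using hρ)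
    refine ⟨2 * K, _, mem_nhdsWithin_of_mem_nhds (inter_mem ht (G3.and G4)),
      LipschitzOnWith.of_dist_le_mul fun a ha b hb => ?_⟩
    have h1 : dist (e (e o v) (G a)) (e (e o v) (G b)) ≤ (1 + 1) * ‖G a - G b‖ :=
      (h _ _ ha.2.2 hb.2.2).2
    have h2 := hK.dist_le_mul a ha.1 b hb.1
    rw [ha.2.1, hb.2.1, ← dist_eq_norm] at h1
    push_cast
    linarith
  obtain ⟨K, hK⟩ := h.exists_lipschitzOnWith_of_compact (isCompact_closedBall 0 R)
  refine ⟨K, K.2, fun a b ha hb => ?_⟩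
  rw [← dist_eq_norm]
  exact hK.dist_le_mul a (mem_closedBall_zero_iff.2 ha) b (mem_closedBall_zero_iff.2 hb)

set_option backward.isDefEq.respectTransparency false in
theorem G_inj (F : Facts e) {o : M} {v : TangentSpace 𝓘(ℝ, E) o}
    (hd : Function.Injective (mfderiv 𝓘(ℝ, TangentSpace 𝓘(ℝ, E) o) 𝓘(ℝ, E) (e o) v)) :
    ∀ᶠ p in 𝓝 (v, v), e o p.1 = e o p.2 → p.1 = p.2 := by
  obtain ⟨G, G1, G2, G3, G4⟩ := G_coord F o v
  have hs := G1.hasStrictFDerivAt (by simp)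
  have inj : Function.Injective (fderiv ℝ G v) := by
    have h1 : e o =ᶠ[𝓝 v] e (e o v) ∘ G := G3.mono fun _ h => h.symm
    rw [h1.mfderiv_eq, mfderiv_comp v
      ((contMDiff_exp_fiber F.isExp (e o v) (G v)).mdifferentiableAt (by simp))
      hs.hasFDerivAt.differentiableAt.mdifferentiableAt, mfderiv_eq_fderiv] at hd
    exact Function.Injective.of_comp hd
  obtain ⟨K, hK, ha⟩ := (fderiv ℝ G v).toLinearMap.exists_antilipschitzWith
    (LinearMap.ker_eq_bot.2 inj)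
  have K0 : (0 : ℝ) < K := hK
  filter_upwards [hs.isLittleO.def (c := 1 / (2 * K)) (by positivity)] with p h k
  have h2 : ‖p.1 - p.2‖ ≤ K * ‖fderiv ℝ G v (p.1 - p.2)‖ :=
    ZeroHomClass.bound_of_antilipschitz _ ha _
  rw [G4 _ _ k, sub_self, zero_sub, norm_neg] at h
  have h3 := mul_le_mul_of_nonneg_left h K0.le
  rw [← mul_assoc, show (K : ℝ) * (1 / (2 * K)) = 1 / 2 by field_simp] at h3
  exact sub_eq_zero.1 (norm_le_zero_iff.1 (by linarith))

theorem mem_injDomain_of_unique (F : Facts e) {o : M} {v : TangentSpace 𝓘(ℝ, E) o}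
    (hv : v ∈ segMin e o) (hu : ∀ w ∈ segMin e o, e o w = e o v → w = v)
    (hd : Function.Injective (mfderiv 𝓘(ℝ, TangentSpace 𝓘(ℝ, E) o) 𝓘(ℝ, E) (e o) v)) :
    v ∈ injDomain e o := by
  have : ProperSpace (TangentSpace 𝓘(ℝ, E) o) := FiniteDimensional.proper_real _
  have cx := (contMDiff_exp_fiber F.isExp o).continuous
  let a : ℕ → ℝ := fun k => 1 + 1 / ((k : ℝ) + 1)
  have a1 : ∀ k, 1 < a k := fun k => lt_add_of_pos_right _ (by positivity)
  have av : Tendsto (fun k => a k • v) atTop (𝓝 v) := by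
    have := ((tendsto_one_div_add_atTop_nhds_zero_nat (𝕜 := ℝ)).const_add 1).smul_const v
    rwa [add_zero, one_smul] at this
  choose w hw hd' using fun k => F.hopfRinow o (e o (a k • v))
  obtain ⟨u, -, φ, hφ, hl⟩ := (isCompact_closedBall (0 : TangentSpace 𝓘(ℝ, E) o)
    (diam (univ : Set M))).tendsto_subseq (x := w) fun k => by
      rw [mem_closedBall_zero_iff, ← hd']
      exact dist_le_diam_of_mem isCompact_univ.isBounded (mem_univ _) (mem_univ _)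
  have t1 := av.comp hφ.tendsto_atTop
  have t2 : Tendsto (fun k => e o (w (φ k))) atTop (𝓝 (e o u)) := (cx.tendsto u).comp hl
  have t3 : Tendsto (fun k => e o (w (φ k))) atTop (𝓝 (e o v)) := by
    simp only [hw]
    exact (cx.tendsto v).comp t1
  have t4 : Tendsto (fun k => dist o (e o (w (φ k)))) atTop (𝓝 ‖u‖) := by
    simp only [hw, hd']
    exact hl.norm
  obtain rfl := hu u (tendsto_nhds_unique (tendsto_const_nhds.dist t2) t4)
    (tendsto_nhds_unique t2 t3)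
  obtain ⟨k, hk⟩ := ((hl.prodMk_nhds t1).eventually (G_inj F hd)).exists
  refine ⟨a (φ k), a1 _, ?_⟩
  rw [hd', show w (φ k) = a (φ k) • u from hk (hw _), norm_smul, Real.norm_of_nonneg
    (zero_le_one.trans (a1 _).le)]

end Vale.Agent.N234N

end

section
set_option maxSynthPendingDepth 3
set_option linter.unusedSectionVars false

open Bundle Manifold Set Filter MeasureTheory Module Metric
open scoped ContDiff Manifold Topology ENNReal

namespace Vale.Agent.N234N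

open Vale.Agent.P234 Vale.Agent.N234

lemma vol_flat {M : Type*} [MetricSpace M] [MeasurableSpace M] [BorelSpace M] {V : Type*}
    [NormedAddCommGroup V] [InnerProductSpace ℝ V] [FiniteDimensional ℝ V] {n : ℕ}
    (hn : finrank ℝ V = n) {f : V → M} {ρ : ℝ}
    (hf : ∀ a b, ‖a‖ < ρ → ‖b‖ < ρ → ‖a - b‖ ≤ 2 * dist (f a) (f b) ∧
      dist (f a) (f b) ≤ 2 * ‖a - b‖) {r : ℝ} (h0 : 0 < r) (h1 : r ≤ ρ) :
    μHE[n] (f '' ball 0 r) < ⊤ ∧ μHE[n] (f '' ball 0 r) ≠ 0 := by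
  borelize V
  subst hn
  have := isAddHaarMeasure_euclideanHausdorffMeasure (E := V)
  have h2 := fun a (ha : a ∈ ball (0 : V) r) b (hb : b ∈ ball (0 : V) r) =>
    hf a b ((mem_ball_zero_iff.1 ha).trans_le h1) ((mem_ball_zero_iff.1 hb).trans_le h1)
  constructor
  · refine (vol_lip _ zero_le_two fun a ha b hb => ?_).trans_lt
      (ENNReal.mul_lt_top ENNReal.ofReal_lt_top measure_ball_lt_top)
    rw [dist_eq_norm]
    exact (h2 a ha b hb).2
  · intro h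
    have h3 := vol_colip (finrank ℝ V) zero_le_two (f := f) (S := ball 0 r) fun a ha b hb => by
      rw [dist_eq_norm]
      exact (h2 a ha b hb).1
    rw [h, mul_zero] at h3
    exact absurd h3 (not_le.2 (measure_ball_pos _ _ h0))

variable {E : Type*} [NormedAddCommGroup E] [NormedSpace ℝ E] [FiniteDimensional ℝ E]
  {M : Type*} [MetricSpace M] [ChartedSpace E M]
  [RiemannianBundle (fun x : M => TangentSpace 𝓘(ℝ, E) x)]
  [IsManifold 𝓘(ℝ, E) ∞ M]
  [IsContMDiffRiemannianBundle 𝓘(ℝ, E) ∞ E (fun x : M => TangentSpace 𝓘(ℝ, E) x)]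
  [CompactSpace M] [MeasurableSpace M] [BorelSpace M]
  {e : ∀ x : M, TangentSpace 𝓘(ℝ, E) x → M}

theorem vol_finite (F : Facts e) : IsFiniteMeasure (μHE[finrank ℝ E] : Measure M) := by
  have : IsLocallyFiniteMeasure (μHE[finrank ℝ E] : Measure M) := ⟨fun x => by
    obtain ⟨ρ, hρ, h⟩ := chart F x
    refine ⟨ball x ρ, ball_mem_nhds x hρ, lt_of_le_of_lt (measure_mono fun y hy => ?_)
      (vol_flat (V := TangentSpace 𝓘(ℝ, E) x) rfl h hρ le_rfl).1⟩
    obtain ⟨a, rfl, hd⟩ := F.hopfRinow x y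
    rw [mem_ball', hd] at hy
    exact ⟨a, by simpa using hy, rfl⟩⟩
  exact ⟨isCompact_univ.measure_lt_top⟩

theorem vol_openPos (F : Facts e) : (μHE[finrank ℝ E] : Measure M).IsOpenPosMeasure :=
  ⟨fun U hU ⟨x, hx⟩ h0 => by
    obtain ⟨ρ, hρ, h⟩ := chart F x
    obtain ⟨r, hr, hr'⟩ := Metric.isOpen_iff.1 hU x hx
    refine (vol_flat (V := TangentSpace 𝓘(ℝ, E) x) rfl h (lt_min hr hρ) (min_le_right _ _)).2
      (measure_mono_null ?_ h0)
    rintro _ ⟨a, ha, rfl⟩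
    refine hr' (mem_ball'.2 ((dist_exp_le' F.isExp x a).trans_lt ?_))
    exact (mem_ball_zero_iff.1 ha).trans_le (min_le_left _ _)⟩

end Vale.Agent.N234N

end
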