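import Vale.Agent.N234N.Cal

/-!
# P234: approximate convexity of mountains with close foci, and supports with prescribed slope
-/

set_option maxSynthPendingDepth 3
set_option linter.unusedSectionVars false

open Bundle Manifold Set Filter MeasureTheory Module Metric
open scoped ContDiff Manifold Topology ENNReal

namespace Vale.Agent.N234N

open Vale.Agent.P234 Vale.Agent.N234

variable {E : Type*} [NormedAddCommGroup E] [NormedSpace ℝ E] [FiniteDimensional ℝ E]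
  {M : Type*} [MetricSpace M] [ChartedSpace E M]
  [RiemannianBundle (fun x : M => TangentSpace 𝓘(ℝ, E) x)]
  [IsManifold 𝓘(ℝ, E) ∞ M]
  [IsContMDiffRiemannianBundle 𝓘(ℝ, E) ∞ E (fun x : M => TangentSpace 𝓘(ℝ, E) x)]
  [CompactSpace M]
  {e : ∀ x : M, TangentSpace 𝓘(ℝ, E) x → M}
  {o : M} {Q : Set (TangentSpace 𝓘(ℝ, E) o)} {δ r : ℝ}
  {Φ : TangentSpace 𝓘(ℝ, E) o → TangentSpace 𝓘(ℝ, E) o → TangentSpace 𝓘(ℝ, E) o}

/-- The section of `φ + c(o, .)` at level `m`, in normal coordinates at `o`. -/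
def sec (e : ∀ x : M, TangentSpace 𝓘(ℝ, E) x → M) (φ : M → ℝ) (o : M) (m : ℝ) :
    Set (TangentSpace 𝓘(ℝ, E) o) :=
  {v | dist o (e o v) = ‖v‖ ∧ φ (e o v) + cost o (e o v) ≤ m}

lemma isCompact_sec (F : Facts e) {φ : M → ℝ} (hφ : Continuous φ) (o : M) (m : ℝ) :
    IsCompact (sec e φ o m) := by
  have hc := (contMDiff_exp_fiber F.isExp o).continuous
  refine isCompact_of_isClosed_isBounded ((isClosed_eq (continuous_const.dist hc)
    continuous_norm).inter (isClosed_le ((hφ.comp hc).add (cost_cont continuous_const hc))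
      continuous_const)) ((isBounded_closedBall (x := 0) (r := diam (univ : Set M))).subset ?_)
  intro v hv
  rw [mem_closedBall_zero_iff, ← hv.1]
  exact dist_le_diam_of_mem isCompact_univ.isBounded (mem_univ _) (mem_univ _)

lemma mt_zero (F : Facts e) (q : TangentSpace 𝓘(ℝ, E) o) : mt e o q 0 = 0 := by
  rw [mt, F.isExp.map_zero, sub_self]

lemma mt_qc (hL : LoeperMax e) {a b : TangentSpace 𝓘(ℝ, E) o} (ha : a ∈ segMin e o)
    (hb : b ∈ segMin e o) {t : ℝ} (h0 : 0 ≤ t) (h1 : t ≤ 1) (ζ : TangentSpace 𝓘(ℝ, E) o) :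
    mt e o (a + t • (b - a)) ζ ≤ max (mt e o a ζ) (mt e o b ζ) := by
  have h := (hL o a b t ha hb h0 h1).2 (e o ζ)
  have h2 : (1 - t) • a + t • b = a + t • (b - a) := by
    rw [sub_smul, one_smul, smul_sub]
    abel
  rw [h2] at h
  simpa only [mt, cost_comm o, cost_comm (e o ζ)] using h

lemma Mix.mixed (h : Mix e o Q δ r Φ) (hQ : Convex ℝ Q) {a b ζ ξ : TangentSpace 𝓘(ℝ, E) o}
    (ha : a ∈ Q) (hb : b ∈ Q) (hζ : ‖ζ‖ < r) (hξ : ‖ξ‖ < r) :
    |mt e o b ζ - mt e o a ζ - (mt e o b ξ - mt e o a ξ) - inner ℝ (ζ - ξ) (b - a)| ≤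
      δ * ‖ζ - ξ‖ * ‖b - a‖ := by
  have h1 := hQ.norm_image_sub_le_of_norm_hasFDerivWithin_le
    (f := fun u => mt e o u ζ - mt e o u ξ - innerSL ℝ (ζ - ξ) u)
    (f' := fun u => innerSL ℝ (Φ u ζ - Φ u ξ - (ζ - ξ))) (C := δ * ‖ζ - ξ‖) (fun u hu => by
      rw [map_sub (innerSL ℝ) (Φ u ζ - Φ u ξ), map_sub (innerSL ℝ) (Φ u ζ)]
      exact (((h.deriv u hu ζ hζ).sub (h.deriv u hu ξ hξ)).sub
        (innerSL ℝ (ζ - ξ)).hasFDerivAt).hasFDerivWithinAt)
    (fun u hu => by rw [innerSL_apply_norm]; exact h.approx u hu ζ ξ hζ hξ) ha hb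
  rw [Real.norm_eq_abs] at h1
  convert h1 using 2
  simp only [innerSL_apply_apply, inner_sub_right]
  ring

lemma Mix.norm_le (h : Mix e o Q δ r Φ) {q ζ : TangentSpace 𝓘(ℝ, E) o} (hq : q ∈ Q)
    (hζ : ‖ζ‖ < r) : ‖Φ q ζ - ζ‖ ≤ δ * ‖ζ‖ := by
  have := h.approx q hq ζ 0 hζ (by simpa using h.pos)
  simpa [h.zero q hq] using this

/-- Three point inequality. -/
lemma Mix.three (F : Facts e) (hL : LoeperMax e) (h : Mix e o Q δ r Φ) (hδ : δ ≤ 1 / 2)
    (hQ : Convex ℝ Q) (hQs : Q ⊆ segMin e o) {a b ζ : TangentSpace 𝓘(ℝ, E) o} (ha : a ∈ Q)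
    (hb : b ∈ Q) (hζ : ‖ζ‖ ≤ r / 2) {t : ℝ} (h0 : 0 < t) (h1 : t < 1) :
    (1 - t) * (mt e o (a + t • (b - a)) ζ - mt e o a ζ) ≤
      4 * t * max 0 (mt e o b ζ - mt e o (a + t • (b - a)) ζ) := by
  have hr := h.pos
  set c := a + t • (b - a) with hc
  have hcQ : c ∈ Q := hQ.add_smul_sub_mem ha hb ⟨h0.le, h1.le⟩
  rcases le_or_gt (mt e o c ζ) (mt e o a ζ) with hle | hlt
  · have := mul_nonneg (sub_pos.2 h1).le (sub_nonneg.2 hle)
    have := mul_nonneg h0.le (le_max_left 0 (mt e o b ζ - mt e o c ζ))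
    linarith
  have hv : b - a ≠ 0 := fun h0 => by
    rw [hc, h0, smul_zero, add_zero] at hlt
    exact lt_irrefl _ hlt
  have hn : 0 < ‖b - a‖ := norm_pos_iff.2 hv
  have hζr : ‖ζ‖ < r := by linarith
  have e1 : c - a = t • (b - a) := by rw [hc, add_sub_cancel_left]
  have e2 : b - c = (1 - t) • (b - a) := by
    rw [hc, sub_smul, one_smul]
    abel
  set τ := (mt e o c ζ - mt e o a ζ) / (2 * t) with hτ
  have hτ0 : 0 < τ := div_pos (sub_pos.2 hlt) (by positivity)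
  have hτ1 : mt e o c ζ - mt e o a ζ = 2 * t * τ := by
    rw [hτ]
    field_simp
  have m0 := (abs_le.1 (h.mixed hQ ha hcQ hζr (ξ := 0) (by simpa using hr))).2
  rw [mt_zero F, mt_zero F, sub_zero ζ, e1, real_inner_smul_right, norm_smul, Real.norm_eq_abs,
    abs_of_pos h0, hτ1] at m0
  have m1 := mul_le_mul_of_nonneg_left (real_inner_le_norm ζ (b - a)) h0.le
  have m2 : δ * ‖ζ‖ * (t * ‖b - a‖) ≤ 1 / 2 * ‖ζ‖ * (t * ‖b - a‖) := by gcongr
  have m3 : τ ≤ 3 / 4 * ‖ζ‖ * ‖b - a‖ := by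
    have : t * τ ≤ t * (3 / 4 * ‖ζ‖ * ‖b - a‖) := by linarith
    exact le_of_mul_le_mul_left this h0
  set η := (τ / ‖b - a‖ ^ 2) • (b - a) with hη
  have n1 : ‖η‖ * ‖b - a‖ = τ := by
    rw [hη, norm_smul, Real.norm_eq_abs, abs_of_pos (by positivity)]
    field_simp
  have n2 : inner ℝ η (b - a) = τ := by
    rw [hη, real_inner_smul_left, real_inner_self_eq_norm_sq]
    field_simp
  have n3 : ‖η‖ ≤ 3 / 4 * ‖ζ‖ := le_of_mul_le_mul_right (by linarith) hn
  have hξ : ‖ζ - η‖ < r := by linarith [norm_sub_le ζ η]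
  have k1 := (abs_le.1 (h.mixed hQ ha hcQ hζr hξ)).2
  have k2 := (abs_le.1 (h.mixed hQ hcQ hb hζr hξ)).1
  clear_value η
  rw [sub_sub_cancel, e1, real_inner_smul_right, n2, norm_smul, Real.norm_eq_abs,
    abs_of_pos h0, hτ1] at k1
  rw [sub_sub_cancel, e2, real_inner_smul_right, n2, norm_smul, Real.norm_eq_abs,
    abs_of_pos (sub_pos.2 h1)] at k2
  have k3 : δ * ‖η‖ * (t * ‖b - a‖) ≤ t * τ / 2 := by
    calc δ * ‖η‖ * (t * ‖b - a‖) = δ * (t * (‖η‖ * ‖b - a‖)) := by ring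
      _ ≤ 1 / 2 * (t * τ) := by rw [n1]; gcongr
      _ = _ := by ring
  have k4 : δ * ‖η‖ * ((1 - t) * ‖b - a‖) ≤ (1 - t) * τ / 2 := by
    have := sub_pos.2 h1
    calc δ * ‖η‖ * ((1 - t) * ‖b - a‖) = δ * ((1 - t) * (‖η‖ * ‖b - a‖)) := by ring
      _ ≤ 1 / 2 * ((1 - t) * τ) := by rw [n1]; gcongr
      _ = _ := by ring
  have k5 := mt_qc hL (hQs ha) (hQs hb) h0.le h1.le (ζ - η)
  rw [← hc] at k5
  have k6 := mul_pos h0 hτ0
  have k7 : mt e o c (ζ - η) ≤ mt e o b (ζ - η) :=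
    (le_max_iff.1 k5).resolve_left (by linarith)
  have k8 : (1 - t) * τ / 2 ≤ max 0 (mt e o b ζ - mt e o c ζ) :=
    le_max_of_le_right (by linarith)
  rw [hτ1]
  nlinarith

lemma Mix.line (h : Mix e o Q δ r Φ) {q ζ : TangentSpace 𝓘(ℝ, E) o} (hq : q ∈ Q) (hζ : ‖ζ‖ < r)
    (v : TangentSpace 𝓘(ℝ, E) o) :
    Tendsto (fun t : ℝ => (mt e o (q + t • v) ζ - mt e o q ζ) / t) (𝓝[>] 0)
      (𝓝 (inner ℝ (Φ q ζ) v)) ∧
    Tendsto (fun t : ℝ => mt e o (q + t • v) ζ) (𝓝[>] 0) (𝓝 (mt e o q ζ)) := by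
  have h1 : HasDerivAt (fun t : ℝ => q + t • v) v 0 := by
    simpa using ((hasDerivAt_id (0 : ℝ)).smul_const v).const_add q
  have h2 : HasDerivAt (fun t : ℝ => mt e o (q + t • v) ζ) (inner ℝ (Φ q ζ) v) 0 :=
    HasFDerivAt.comp_hasDerivAt_of_eq (0 : ℝ) (h.deriv q hq ζ hζ) h1 (by simp)
  constructor
  · have h3 := (hasDerivAt_iff_tendsto_slope_zero.1 h2).mono_left
      (nhdsWithin_mono _ (fun t (ht : t ∈ Ioi (0 : ℝ)) => ht.ne'))
    refine h3.congr fun t => ?_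
    simp only [zero_add, zero_smul, add_zero, smul_eq_mul]
    ring
  · simpa using h2.continuousAt.tendsto.mono_left nhdsWithin_le_nhds

/-- The slope at the start is bounded by the increment. -/
lemma Mix.slope_le (F : Facts e) (hL : LoeperMax e) (h : Mix e o Q δ r Φ) (hδ : δ ≤ 1 / 2)
    (hQ : Convex ℝ Q) (hQs : Q ⊆ segMin e o) {a b ζ : TangentSpace 𝓘(ℝ, E) o} (ha : a ∈ Q)
    (hb : b ∈ Q) (hζ : ‖ζ‖ ≤ r / 2) :
    inner ℝ (Φ a ζ) (b - a) ≤ 4 * max 0 (mt e o b ζ - mt e o a ζ) := by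
  obtain ⟨h1, h2⟩ := h.line ha (by linarith [h.pos] : ‖ζ‖ < r) (b - a)
  have h3 : Tendsto (fun t : ℝ => 1 - t) (𝓝[>] 0) (𝓝 1) := by
    simpa using ((tendsto_const_nhds (x := (1 : ℝ))).sub tendsto_id).mono_left
      (nhdsWithin_le_nhds (a := (0 : ℝ)) (s := Ioi 0))
  have h4 := h3.mul h1
  rw [one_mul] at h4
  refine le_of_tendsto_of_tendsto h4
    ((tendsto_const_nhds.max (tendsto_const_nhds.sub h2)).const_mul 4) ?_
  filter_upwards [Ioo_mem_nhdsGT one_pos] with t ht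
  have h5 := h.three F hL hδ hQ hQs ha hb hζ ht.1 ht.2
  rw [← mul_div_assoc, div_le_iff₀ ht.1]
  linarith

/-- The increment is bounded by the slope at the end. -/
lemma Mix.le_slope (F : Facts e) (hL : LoeperMax e) (h : Mix e o Q δ r Φ) (hδ : δ ≤ 1 / 2)
    (hQ : Convex ℝ Q) (hQs : Q ⊆ segMin e o) {a b ζ : TangentSpace 𝓘(ℝ, E) o} (ha : a ∈ Q)
    (hb : b ∈ Q) (hζ : ‖ζ‖ ≤ r / 2) :
    mt e o b ζ - mt e o a ζ ≤ 4 * max 0 (inner ℝ (Φ b ζ) (b - a)) := by
  obtain ⟨h1, h2⟩ := h.line hb (by linarith [h.pos] : ‖ζ‖ < r) (a - b)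
  have h3 := h1.neg
  rw [← inner_neg_right, neg_sub] at h3
  refine le_of_tendsto_of_tendsto (h2.sub_const _) ((tendsto_const_nhds.max h3).const_mul 4) ?_
  filter_upwards [Ioo_mem_nhdsGT one_pos] with t ht
  have h5 := h.three F hL hδ hQ hQs ha hb hζ (sub_pos.2 ht.2) (sub_lt_self 1 ht.1)
  have h6 : a + (1 - t) • (b - a) = b + t • (a - b) := by
    rw [sub_smul, one_smul, smul_sub, smul_sub]
    abel
  rw [h6, sub_sub_cancel] at h5
  have h7 : max 0 (mt e o b ζ - mt e o (b + t • (a - b)) ζ) =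
      t * max 0 (-((mt e o (b + t • (a - b)) ζ - mt e o b ζ) / t)) := by
    rw [mul_max_of_nonneg _ _ ht.1.le, mul_zero, mul_neg, mul_div_cancel₀ _ ht.1.ne', neg_sub]
  rw [h7] at h5
  have h8 := le_max_left 0 (-((mt e o (b + t • (a - b)) ζ - mt e o b ζ) / t))
  refine le_of_mul_le_mul_left ?_ ht.1
  nlinarith [mul_nonneg (mul_nonneg ht.1.le ht.1.le) h8]

lemma cconvex_max {φ : M → ℝ} (hφ : CConvex φ) (a : ℝ) (y : M) :
    CConvex fun x => max (a - cost x y) (φ x) := by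
  obtain ⟨S, hS⟩ := hφ
  refine ⟨insert (a, y) S, fun x => ?_⟩
  rw [image_insert_eq]
  exact (hS x).insert _

lemma hasFDerivAt_quad {V : Type*} [NormedAddCommGroup V] [InnerProductSpace ℝ V] (ξ c q : V)
    (a : ℝ) : HasFDerivAt (fun u => inner ℝ ξ (u - c) - a * ‖u - c‖ ^ 2)
      (innerSL ℝ (ξ - (2 * a) • (q - c))) q := by
  have d1 : HasFDerivAt (fun u : V => u - c) (ContinuousLinearMap.id ℝ V) q :=
    (hasFDerivAt_id q).sub_const c
  have d2 := ((innerSL ℝ ξ).hasFDerivAt.comp q d1).sub (d1.norm_sq.const_mul a)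
  refine d2.congr_fderiv ?_
  ext v
  simp
  ring

/-- A support of the truncated potential with almost prescribed slope, close to `c`. -/
lemma Mix.support (F : Facts e) (hW : WeakMTW e) (h : Mix e o Q δ r Φ) (hδ : δ ≤ 1 / 2)
    {φ : M → ℝ} (hφ : CConvex φ) {m k a β ρ r₁ : ℝ} {c ξ : TangentSpace 𝓘(ℝ, E) o}
    (hB : closedBall c r₁ ⊆ Q) (hQI : Q ⊆ injDomain e o) (hc : c ∈ sec e φ o m) (hk : 0 < k)
    (hβ : ∀ q ∈ sec e φ o (m + k), inner ℝ ξ (q - c) ≤ β) (hβk : β ≤ k / 4) (ha : 0 < a)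
    (hρ : 0 ≤ ρ) (hβρ : β ≤ a * ρ ^ 2) (hρr : ρ < r₁) (hξ : ‖ξ‖ + 2 * a * ρ ≤ r / 4) :
    ∃ q ∈ sec e φ o (m + k), ‖q - c‖ ≤ ρ ∧ ∃ ζ, ‖ζ‖ ≤ r / 2 ∧ Φ q ζ = ξ - (2 * a) • (q - c) ∧
      ∀ x, cost x o - cost x (e o ζ) - mt e o q ζ ≤ max 0 (φ x + cost x o - m - k / 2) := by
  have hX := (contMDiff_exp_fiber F.isExp o).continuous
  have hφc := Reg.CConvex.continuous hφ
  have hψ := cconvex_max hφ (m + k / 2) o
  set ψ : M → ℝ := fun x => max (m + k / 2 - cost x o) (φ x) with hψd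
  set g : TangentSpace 𝓘(ℝ, E) o → ℝ := fun u => inner ℝ ξ (u - c) - a * ‖u - c‖ ^ 2 with hg
  have hcont : Continuous fun u => ψ (e o u) + cost (e o u) o - g u :=
    (((Reg.CConvex.continuous hψ).comp hX).add (cost_cont hX continuous_const)).sub
      (by rw [hg]; fun_prop)
  have hc' : c ∈ sec e φ o (m + k) ∩ closedBall c r₁ :=
    ⟨⟨hc.1, hc.2.trans (by linarith)⟩, mem_closedBall_self (by linarith)⟩
  obtain ⟨q, hq, hmin⟩ := ((isCompact_sec F hφc o (m + k)).inter_right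
    isClosed_closedBall).exists_isMinOn ⟨c, hc'⟩ hcont.continuousOn
  have v1 : ψ (e o q) + cost (e o q) o - g q ≤ ψ (e o c) + cost (e o c) o - g c := hmin hc'
  have v2 : ψ (e o c) = m + k / 2 - cost (e o c) o :=
    max_eq_left (by have := hc.2; rw [cost_comm] at this; linarith)
  have v3 : m + k / 2 - cost (e o q) o ≤ ψ (e o q) := le_max_left _ _
  have v4 : φ (e o q) ≤ ψ (e o q) := le_max_right _ _
  have v5 := hβ q hq.1
  have v6 : 0 ≤ a * ‖q - c‖ ^ 2 := by positivity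
  simp only [hg, v2, sub_self, inner_zero_right, norm_zero] at v1
  have v7 : ‖q - c‖ ≤ ρ := by
    have : a * ‖q - c‖ ^ 2 ≤ a * ρ ^ 2 := by linarith
    exact (pow_le_pow_iff_left₀ (norm_nonneg _) hρ two_ne_zero).1 (le_of_mul_le_mul_left this ha)
  have hqQ : q ∈ Q := hB hq.2
  have hnb : sec e φ o (m + k) ∩ closedBall c r₁ ∈ 𝓝 q := by
    have n1 : ball c r₁ ∈ 𝓝 q := isOpen_ball.mem_nhds (by rw [mem_ball, dist_eq_norm]; linarith)
    have n2 : ∀ᶠ u in 𝓝 q, φ (e o u) + cost o (e o u) < m + k :=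
      ((hφc.comp hX).add (cost_cont continuous_const hX)).continuousAt.eventually_lt
        continuousAt_const (by
          change φ (e o q) + cost o (e o q) < m + k
          rw [cost_comm]
          linarith)
    filter_upwards [n1, n2] with u h1 h2
    exact ⟨⟨injDomain_subset_segMin F.isExp o (hQI (hB (ball_subset_closedBall h1))), h2.le⟩,
      ball_subset_closedBall h1⟩
  have hg' : HasFDerivAt g (innerSL ℝ (ξ - (2 * a) • (q - c))) q := hasFDerivAt_quad ξ c q a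
  obtain ⟨ζ, hζ, h1, h2⟩ := h.tilt F hW hδ hψ hqQ (hQI hqQ) (by
    refine (norm_sub_le _ _).trans (le_trans ?_ hξ)
    rw [norm_smul, Real.norm_eq_abs, abs_of_pos (by positivity)]
    gcongr) hg' (hmin.isLocalMin hnb)
  refine ⟨q, hq.1, v7, ζ, hζ, h1, fun x => ?_⟩
  have h3 : ψ (e o q) + cost (e o q) (e o ζ) - cost x (e o ζ) ≤
    max (m + k / 2 - cost x o) (φ x) := h2 x
  rw [mt]
  rcases le_max_iff.1 h3 with h4 | h4
  · exact le_max_of_le_left (by linarith)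
  · exact le_max_of_le_right (by linarith)

/-- A support at an inner point of the contact set is a support on the whole contact set. -/
lemma Mix.product (F : Facts e) (hL : LoeperMax e) (h : Mix e o Q δ r Φ) (hδ : δ ≤ 1 / 2)
    (hQ : Convex ℝ Q) {φ : M → ℝ} (hφ : CConvex φ) {m r₁ : ℝ} (hm : ∀ x, m ≤ φ x + cost x o)
    {c v ζ : TangentSpace 𝓘(ℝ, E) o} (hr₁ : 0 < r₁) (hB : closedBall c r₁ ⊆ Q)
    (hc : c ∈ sec e φ o m) (hv : v ∈ sec e φ o m) (hv' : c - (1 / 2 : ℝ) • (v - c) ∈ sec e φ o m)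
    (hζ : ‖ζ‖ < r) (hy : e o ζ ∈ cSubdiff φ (e o c)) : e o ζ ∈ cSubdiff φ (e o v) := by
  have hX := (contMDiff_exp_fiber F.isExp o).continuous
  have hle : ∀ q ∈ sec e φ o m, mt e o q ζ ≤ mt e o c ζ := fun q hq => by
    have h1 := hy (e o q)
    have h2 := hq.2
    have h3 := hm (e o c)
    rw [cost_comm] at h2
    simp only [mt]
    linarith
  suffices hge : mt e o c ζ ≤ mt e o v ζ by
    intro x
    have h1 := hy x
    have h2 := hv.2
    have h3 := hm (e o c)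
    rw [cost_comm] at h2
    simp only [mt] at hge
    linarith
  by_contra hlt
  rw [not_le] at hlt
  have hvc : v - c ≠ 0 := fun h0 => by
    rw [sub_eq_zero.1 h0] at hlt
    exact lt_irrefl _ hlt
  have hn : 0 < ‖v - c‖ := norm_pos_iff.2 hvc
  set t := min (1 / 2) (r₁ / ‖v - c‖) with ht
  have ht0 : 0 < t := lt_min (by norm_num) (by positivity)
  have ht1 : t ≤ 1 / 2 := min_le_left _ _
  have ht2 : t * ‖v - c‖ ≤ r₁ := (le_div_iff₀ hn).1 (min_le_right _ _)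
  set u := c - t • (v - c) with hu
  have huc : u - c = -(t • (v - c)) := by rw [hu]; abel
  have huQ : u ∈ Q := hB (by
    rw [mem_closedBall, dist_eq_norm, huc, norm_neg, norm_smul, Real.norm_eq_abs, abs_of_pos ht0]
    exact ht2)
  have hus : u ∈ sec e φ o m := by
    have := (Reg.convex_section hL hφ o m).add_smul_sub_mem hc hv'
      (t := 2 * t) ⟨by positivity, by linarith⟩
    have h9 : u = c + (2 * t) • (c - (1 / 2 : ℝ) • (v - c) - c) := by
      rw [hu, sub_sub_cancel_left, smul_neg, smul_smul, sub_eq_add_neg, show 2 * t * (1 / 2) = t by ring]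
    rw [h9]
    exact this
  have hcomb : u + (t / (1 + t)) • (v - u) = c := by
    have : v - u = (1 + t) • (v - c) := by
      rw [hu, add_smul, one_smul]
      abel
    rw [this, smul_smul, div_mul_cancel₀ _ (by positivity), hu, sub_add_cancel]
  have hline : Continuous fun τ : ℝ => ζ + τ • (v - c) := by fun_prop
  have hmt : ∀ q, Continuous fun τ : ℝ => mt e o q (ζ + τ • (v - c)) := fun q =>
    continuous_const.sub (cost_cont continuous_const (hX.comp hline))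
  have e1 : ∀ᶠ τ in 𝓝 (0 : ℝ), mt e o v (ζ + τ • (v - c)) < mt e o c (ζ + τ • (v - c)) :=
    (hmt v).continuousAt.eventually_lt (hmt c).continuousAt (by simpa using hlt)
  have e2 : ∀ᶠ τ in 𝓝 (0 : ℝ), ‖ζ + τ • (v - c)‖ < r :=
    hline.norm.continuousAt.eventually_lt continuousAt_const (by simpa using hζ)
  obtain ⟨τ, ⟨a1, a2⟩, a3⟩ := (((e1.and e2).filter_mono nhdsWithin_le_nhds).and
    (self_mem_nhdsWithin (a := (0 : ℝ)) (s := Ioi 0))).exists
  have a3' : 0 < τ := a3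
  have b1 := (abs_le.1 (h.mixed hQ (hB (mem_closedBall_self hr₁.le)) huQ a2 hζ)).2
  rw [add_sub_cancel_left, huc, inner_neg_right, real_inner_smul_left, real_inner_smul_right,
    real_inner_self_eq_norm_sq, norm_neg, norm_smul, norm_smul, Real.norm_eq_abs, Real.norm_eq_abs,
    abs_of_pos ht0, abs_of_pos a3'] at b1
  have b2 : δ * (τ * ‖v - c‖) * (t * ‖v - c‖) ≤ 1 / 2 * (τ * ‖v - c‖) * (t * ‖v - c‖) := by gcongr
  have b3 : 0 < τ * (t * ‖v - c‖ ^ 2) := by positivity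
  have b4 := hle u hus
  have b5 := mt_qc hL hus.1 hv.1 (t := t / (1 + t)) (by positivity)
    ((div_le_one (by positivity)).2 (by linarith)) (ζ + τ • (v - c))
  rw [hcomb] at b5
  rcases le_max_iff.1 b5 with b6 | b6 <;> nlinarith

/-- First order behaviour of close mountains near the contact set, cut locus included. -/
lemma near_contact (F : Facts e) {φ : M → ℝ} (hφ : Continuous φ) (o : M) (m : ℝ) {ε : ℝ}
    (hε : 0 < ε) : ∃ ρ > 0, ∀ ζ : TangentSpace 𝓘(ℝ, E) o, ‖ζ‖ < ρ → ∀ z, φ z + cost z o ≤ m + ρ / 2 →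
      ∃ v ∈ sec e φ o m, cost z o - cost z (e o ζ) ≤ inner ℝ v ζ + ε * ‖ζ‖ := by
  have hX := (contMDiff_exp_fiber F.isExp o).continuous
  have key : ∀ᶠ u : TangentSpace 𝓘(ℝ, E) o × ℝ in 𝓝 (0, 0), ∀ p ∈ (univ : Set (M × M)),
      φ p.1 + cost p.1 o ≤ m + u.2 → Mid (e o u.1) p.2 p.1 →
      ∃ v ∈ sec e φ o m, cost p.1 o - cost p.1 (e o u.1) ≤ inner ℝ v u.1 + ε * ‖u.1‖ := by
    refine isCompact_univ.eventually_forall_of_forall_eventually fun p _ => ?_
    by_cases hp : φ p.1 + cost p.1 o ≤ m + 0 ∧ Mid (e o 0) p.2 p.1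
    · rw [F.isExp.map_zero, add_zero] at hp
      obtain ⟨V, hV, hVp, hw⟩ := hp.2.vec F
      obtain ⟨ρ, hρ, h⟩ := onesided F hV hε
      rw [hw] at h
      have e1 : ∀ᶠ z : (TangentSpace 𝓘(ℝ, E) o × ℝ) × M × M in 𝓝 ((0, 0), p), ‖z.1.1‖ < ρ :=
        continuous_fst.fst.norm.continuousAt.eventually_lt continuousAt_const (by simpa using hρ)
      have e2 : ∀ᶠ z : (TangentSpace 𝓘(ℝ, E) o × ℝ) × M × M in 𝓝 ((0, 0), p),
          dist p.2 z.2.2 < ρ :=
        (continuous_const.dist continuous_snd.snd).continuousAt.eventually_lt continuousAt_const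
          (by simpa using hρ)
      filter_upwards [e1, e2] with z z1 z2 _ hm
      refine ⟨V, ⟨hV, by rw [hVp, cost_comm]; exact hp.1⟩, ?_⟩
      have a1 := h z.1.1 0 z1 (by simpa using hρ) z.2.2 z.2.1 hm z2
      rw [F.isExp.map_zero, zero_sub, inner_neg_right, norm_neg, neg_neg, cost_comm o,
        cost_comm (e o _)] at a1
      exact a1
    · have hc : IsClosed {z : (TangentSpace 𝓘(ℝ, E) o × ℝ) × M × M |
          φ z.2.1 + cost z.2.1 o ≤ m + z.1.2 ∧ Mid (e o z.1.1) z.2.2 z.2.1} :=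
        (isClosed_le ((hφ.comp continuous_snd.fst).add (cost_cont continuous_snd.fst
          continuous_const)) (continuous_const.add continuous_fst.snd)).inter
          (isClosed_mid (hX.comp continuous_fst.fst) continuous_snd.snd continuous_snd.fst)
      filter_upwards [hc.isOpen_compl.mem_nhds (show ((0, 0), p) ∈ _ from hp)] with z hz h1 h2
      exact absurd ⟨h1, h2⟩ hz
  obtain ⟨ρ, hρ, h⟩ := Metric.eventually_nhds_iff.1 key
  refine ⟨ρ, hρ, fun ζ hζ z hz => ?_⟩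
  obtain ⟨w, hw⟩ := exists_mid F (e o ζ) z
  exact @h (ζ, ρ / 2) (by
    simp only [Prod.dist_eq, dist_zero_right, max_lt_iff, Real.norm_eq_abs]
    exact ⟨hζ, by rw [abs_of_pos (half_pos hρ)]; linarith⟩) (z, w) (mem_univ _) hz hw

/-- A mountain that stays below the rim of a section touches `φ` only inside the section. -/
lemma inside (F : Facts e) (hL : LoeperMax e) {φ : M → ℝ} (hφ : CConvex φ) {o x₀ x y : M}
    {m k : ℝ} (hk : 0 < k) (h₀ : φ x₀ + cost x₀ o = m)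
    (hy : ∀ z, φ z + cost z o = m + k →
      cost z o - cost z y - (cost x₀ o - cost x₀ y) ≤ 3 * k / 4) (hx : y ∈ cSubdiff φ x) :
    φ x + cost x o ≤ m + k := by
  by_contra hlt
  rw [not_le] at hlt
  obtain ⟨a, ha, da⟩ := F.hopfRinow y x₀
  obtain ⟨b, hb, db⟩ := F.hopfRinow y x
  have hX := (contMDiff_exp_fiber F.isExp y).continuous
  have hl : Continuous fun t : ℝ => e y (a + t • (b - a)) := hX.comp (by fun_prop)
  have hc : Continuous fun t : ℝ => φ (e y (a + t • (b - a))) + cost (e y (a + t • (b - a))) o :=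
    ((Reg.CConvex.continuous hφ).comp hl).add (cost_cont hl continuous_const)
  obtain ⟨t, ht, h⟩ := intermediate_value_Icc zero_le_one hc.continuousOn
    (show m + k ∈ Icc _ _ from ⟨by simp only [zero_smul, add_zero, ha]; linarith,
      by simp only [one_smul, add_sub_cancel, hb]; exact hlt.le⟩)
  have h1 := ((Reg.convex_section hL hφ y (φ x₀ + cost y x₀)).add_smul_sub_mem
    (x := a) (y := b) ⟨by rw [ha, da], by rw [ha]⟩ ⟨by rw [hb, db], by
      have := hx x₀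
      rw [hb, cost_comm y, cost_comm y]
      linarith⟩ ht).2
  have h2 := hy _ h
  simp only at h
  rw [cost_comm y, cost_comm y] at h1
  linarith

end Vale.Agent.N234N
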