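import Vale.Agent.N234N.Est
import Mathlib.Analysis.Convex.Join

/-!
# P234: the contact sets are single points
-/

set_option maxSynthPendingDepth 3
set_option linter.unusedSectionVars false

open Bundle Manifold Set Filter MeasureTheory Module Metric
open scoped ContDiff Manifold Topology ENNReal

namespace Vale.Agent.N234N

open Vale.Agent.P234 Vale.Agent.N234

section lin

variable {V : Type*} [NormedAddCommGroup V] [InnerProductSpace ℝ V] [FiniteDimensional ℝ V]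

lemma exists_hull {I B : Set V} {q : V} (hI : Convex ℝ I) (hB : IsCompact B) (hBc : Convex ℝ B)
    (hBI : B ⊆ I) (hq : q ∈ I) (hne : B.Nonempty) :
    ∃ Q, IsCompact Q ∧ Convex ℝ Q ∧ Q ⊆ I ∧ B ⊆ Q ∧ q ∈ Q := by
  refine ⟨convexJoin ℝ {q} B, ?_, (convex_singleton q).convexJoin hBc,
    convexJoin_subset (singleton_subset_iff.2 hq) hBI hI,
    subset_convexJoin_right (singleton_nonempty q), subset_convexJoin_left hne rfl⟩
  have : convexJoin ℝ {q} B = (fun p : ℝ × V => q + p.1 • (p.2 - q)) '' (Icc 0 1 ×ˢ B) := by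
    ext u
    simp only [convexJoin_singleton_left, segment_eq_image', mem_iUnion, mem_image, mem_prod,
      Prod.exists]
    constructor
    · rintro ⟨y, hy, t, ht, rfl⟩
      exact ⟨t, y, ⟨ht, hy⟩, rfl⟩
    · rintro ⟨t, y, ⟨ht, hy⟩, rfl⟩
      exact ⟨y, hy, t, ht, rfl⟩
  rw [this]
  exact (isCompact_Icc.prod hB).image (by fun_prop)

lemma box_shrink {n : ℕ} {b : OrthonormalBasis (Fin n) ℝ V} {S : Set V} {c z : V} {w : Fin n → ℝ}
    {R r s : ℝ} (hS : Convex ℝ S) (hc : c ∈ S) (hR : S ⊆ closedBall c R) (hz : box b z w ⊆ S)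
    (h0 : 0 < s) (h1 : s ≤ 1) (hs : s * R ≤ r) :
    box b (c + s • (z - c)) (fun i => s * w i) ⊆ S ∩ closedBall c r := by
  intro u hu
  have h2 : c + s⁻¹ • (u - c) ∈ S := hz fun i => by
    have h3 : c + s⁻¹ • (u - c) - z = s⁻¹ • (u - (c + s • (z - c))) := by
      rw [← sub_sub, smul_sub s⁻¹ (u - c), smul_smul, inv_mul_cancel₀ h0.ne', one_smul]
      abel
    rw [h3, real_inner_smul_right, abs_mul, abs_of_pos (inv_pos.2 h0), inv_mul_le_iff₀ h0]
    exact hu i
  have h4 := hS.add_smul_sub_mem hc h2 ⟨h0.le, h1⟩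
  have h5 := hR h2
  rw [add_sub_cancel_left, smul_smul, mul_inv_cancel₀ h0.ne', one_smul, add_sub_cancel] at h4
  rw [mem_closedBall, dist_eq_norm, add_sub_cancel_left, norm_smul, Real.norm_eq_abs,
    abs_of_pos (inv_pos.2 h0), inv_mul_le_iff₀ h0] at h5
  exact ⟨h4, by rw [mem_closedBall, dist_eq_norm]; linarith⟩

lemma vol_image_box {M : Type*} [MetricSpace M] [MeasurableSpace M] [BorelSpace M] {n : ℕ}
    (hn : finrank ℝ V = n) {f : V → M} {K R : ℝ} (hK : 0 ≤ K)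
    (hf : ∀ a b, ‖a‖ ≤ R → ‖b‖ ≤ R → dist (f a) (f b) ≤ K * ‖a - b‖) :
    ∃ C ≥ 0, ∀ (b : OrthonormalBasis (Fin n) ℝ V) (z : V) (w : Fin n → ℝ) (S : Set V),
      (∀ i, 0 ≤ w i) → S ⊆ box b z w → (∀ a ∈ S, ‖a‖ ≤ R) →
      μHE[n] (f '' S) ≤ ENNReal.ofReal (C * ∏ i, w i) := by
  borelize V
  obtain ⟨c, -, C, hC, h⟩ := vol_box hn
  refine ⟨K ^ n * C, by positivity, fun b z w S hw hS hR => ?_⟩
  refine (vol_lip n hK fun a ha b hb => by
    rw [dist_eq_norm]; exact hf a b (hR a ha) (hR b hb)).trans ?_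
  rw [mul_assoc, ENNReal.ofReal_mul (by positivity)]
  gcongr
  exact (measure_mono hS).trans (h b z w hw).2

end lin

variable {E : Type*} [NormedAddCommGroup E] [NormedSpace ℝ E] [FiniteDimensional ℝ E]
  {M : Type*} [MetricSpace M] [ChartedSpace E M]
  [RiemannianBundle (fun x : M => TangentSpace 𝓘(ℝ, E) x)]
  [IsManifold 𝓘(ℝ, E) ∞ M]
  [IsContMDiffRiemannianBundle 𝓘(ℝ, E) ∞ E (fun x : M => TangentSpace 𝓘(ℝ, E) x)]
  [CompactSpace M]
  {e : ∀ x : M, TangentSpace 𝓘(ℝ, E) x → M}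
  {o : M} {Q : Set (TangentSpace 𝓘(ℝ, E) o)} {δ r : ℝ}
  {Φ : TangentSpace 𝓘(ℝ, E) o → TangentSpace 𝓘(ℝ, E) o → TangentSpace 𝓘(ℝ, E) o}

/-- Foci whose mountain through `x` stays below the rim of the section of height `k`. -/
def dset (φ : M → ℝ) (o x : M) (m k : ℝ) : Set M :=
  {y | ∀ z, φ z + cost z o = m + k → cost z o - cost z y - (cost x o - cost x y) ≤ 3 * k / 4}

lemma isClosed_dset (φ : M → ℝ) (o x : M) (m k : ℝ) : IsClosed (dset φ o x m k) := by
  simp only [dset, ofPred_forall]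
  exact isClosed_iInter fun z => isClosed_iInter fun _ => isClosed_le
    ((continuous_const.sub (cost_cont continuous_const continuous_id)).sub
      (continuous_const.sub (cost_cont continuous_const continuous_id))) continuous_const

lemma convex_dset (hL : LoeperMax e) (φ : M → ℝ) (o x : M) (m k : ℝ) :
    Convex ℝ {p | p ∈ segMin e x ∧ e x p ∈ dset φ o x m k} := by
  intro v hv w hw a b ha hb hab
  obtain rfl : a = 1 - b := by linarith only [hab]
  obtain ⟨h1, h2⟩ := hL x v w b hv.1 hw.1 hb (by linarith only [ha])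
  refine ⟨h1, fun z hz => ?_⟩
  have h3 := hv.2 z hz
  have h4 := hw.2 z hz
  rcases le_max_iff.1 (h2 z) with h | h <;> linarith

lemma norm_le_of_sec {φ : M → ℝ} {m : ℝ} {v : TangentSpace 𝓘(ℝ, E) o} (hv : v ∈ sec e φ o m) :
    ‖v‖ ≤ diam (univ : Set M) := by
  rw [← hv.1]
  exact dist_le_diam_of_mem isCompact_univ.isBounded (mem_univ _) (mem_univ _)

lemma thick (F : Facts e) (φ : M → ℝ) (x : M) (m : ℝ) {k : ℝ} {ζ : TangentSpace 𝓘(ℝ, E) o}
    (h : diam (univ : Set M) * ‖ζ‖ ≤ 3 * k / 8) : e o ζ ∈ dset φ o x m k := fun z _ => by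
  have h1 := Reg.cost_sub_cost_le (e o ζ) o z
  have h2 := Reg.cost_sub_cost_le o (e o ζ) x
  have h3 := mul_le_mul_of_nonneg_left (dist_exp_le' F.isExp o ζ) (diam_nonneg (s := (univ : Set M)))
  rw [dist_comm, cost_comm o, cost_comm _ z] at h1
  rw [cost_comm o, cost_comm _ x] at h2
  linarith

lemma long (F : Facts e) {φ : M → ℝ} (hφ : Continuous φ) {m θ ℓ : ℝ}
    {c u : TangentSpace 𝓘(ℝ, E) o} (hθ : 0 < θ) (hℓ : 0 < ℓ) (hu : ‖u‖ = 1)
    (hfar : ∀ v ∈ sec e φ o m, ‖v - c‖ ≤ ℓ) (hq : c + ((1 - θ) * ℓ) • u ∈ injDomain e o) :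
    ∀ᶠ k in 𝓝[>] (0 : ℝ),
      e o ((k / (4 * θ * ℓ)) • u) ∈ dset φ o (e o (c + ((1 - θ) * ℓ) • u)) m k := by
  have hε : 0 < θ * ℓ / 2 := by positivity
  obtain ⟨ρ, hρ, h⟩ := near_contact F hφ o m hε
  obtain ⟨ρ', hρ', h'⟩ := strict F (injDomain_subset_segMin F.isExp o hq) (F.smooth_cost o _ hq) hε
  filter_upwards [Ioo_mem_nhdsGT (show 0 < min (ρ / 2) (min ρ ρ' * (4 * θ * ℓ)) by positivity)]
    with k hk z hz
  have hk0 := hk.1
  set σ := k / (4 * θ * ℓ) with hσ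
  have hσ0 : 0 < σ := by positivity
  have hσ1 : σ < min ρ ρ' := (div_lt_iff₀ (by positivity)).2 (hk.2.trans_le (min_le_right _ _))
  have hσ2 : σ * (θ * ℓ) = k / 4 := by
    rw [hσ]
    field_simp
  clear_value σ
  have hn : ‖σ • u‖ = σ := by rw [norm_smul, hu, mul_one, Real.norm_eq_abs, abs_of_pos hσ0]
  obtain ⟨v, hv, h1⟩ := h (σ • u) (by rw [hn]; exact hσ1.trans_le (min_le_left _ _)) z
    (by linarith [hk.2.trans_le (min_le_left _ _)])
  have h2 := h' 0 (σ • u) (by simpa using hρ') (by rw [hn]; exact hσ1.trans_le (min_le_right _ _))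
    (e o (c + ((1 - θ) * ℓ) • u)) (by simpa using hρ')
  rw [F.isExp.map_zero, sub_zero, hn, real_inner_smul_right, inner_add_left, real_inner_smul_left,
    real_inner_self_eq_norm_sq, hu, cost_comm o, cost_comm (e o (σ • u))] at h2
  rw [hn, real_inner_smul_right] at h1
  have h3 := real_inner_le_norm (v - c) u
  rw [hu, mul_one, inner_sub_left] at h3
  have h4 := mul_le_mul_of_nonneg_left (h3.trans (hfar v hv)) hσ0.le
  nlinarith

lemma thin (F : Facts e) (hW : WeakMTW e) (h : Mix e o Q δ r Φ) (hQ : Convex ℝ Q)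
    (hQI : Q ⊆ injDomain e o) {φ : M → ℝ} (hφ : CConvex φ) {m k r₁ R γ w N : ℝ}
    {c q u : TangentSpace 𝓘(ℝ, E) o} (hB : closedBall c r₁ ⊆ Q) (hc : c ∈ sec e φ o m)
    (hq : q ∈ Q) (hqs : q ∈ sec e φ o (m + k)) (hu : ‖u‖ = 1)
    (hS : sec e φ o (m + k) ⊆ closedBall c R)
    (hw : ∀ v ∈ sec e φ o (m + k), |inner ℝ u (v - c)| ≤ w) (hw0 : 0 < w) (hr₁ : 0 < r₁)
    (hN : 1 ≤ N) (hwr : 18 * N * w ≤ r₁) (hδ0 : 0 ≤ δ) (hδ : 18 * N * δ ≤ 1) (hγ : 0 < γ)
    (hR : 0 < R) (hγ1 : γ * (32 + 96 * R / r₁) ≤ 1) (hk : 0 < k) (hs : γ * k / w ≤ r / 8) :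
    ∃ ζ, ‖ζ‖ ≤ 3 * (γ * k / w) ∧ ‖Φ q ζ - (γ * k / w) • u‖ ≤ γ * k / w / (2 * N) ∧
      e o ζ ∈ dset φ o (e o q) m k := by
  have hL : LoeperMax e := ((Reg.tfae F).out 0 1).1 hW
  have hr := h.pos
  have hδ2 : δ ≤ 1 / 2 := by nlinarith
  set σ := γ * k / w with hσ
  have hσ0 : 0 < σ := by positivity
  have hσw : σ * w = γ * k := by
    rw [hσ]
    field_simp
  clear_value σ
  have hn : ‖σ • u‖ = σ := by rw [norm_smul, hu, mul_one, Real.norm_eq_abs, abs_of_pos hσ0]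
  set g := γ * k / r₁ with hg
  have hg0 : 0 < g := by positivity
  have hg1 : g * r₁ = γ * k := by
    rw [hg]
    field_simp
  have hg2 : 96 * (g * R) ≤ k - 32 * (γ * k) := by
    have := mul_le_mul_of_nonneg_right hγ1 hk.le
    have h2 : γ * (32 + 96 * R / r₁) * k = 32 * (γ * k) + 96 * (g * R) := by
      rw [hg]
      ring
    linarith
  clear_value g
  have hg3 : 18 * N * g ≤ σ := by
    refine le_of_mul_le_mul_right ?_ hw0
    have := mul_le_mul_of_nonneg_left hwr hg0.le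
    linarith
  have hgR : 0 < g * R := by positivity
  have hgN : g ≤ N * g := by nlinarith
  have ha : 2 * (2 * g / r₁) * (3 * r₁ / 4) = 3 * g := by
    field_simp
    ring
  obtain ⟨p, hp, hpc, ζ, hζ, h1, h2⟩ := h.support F hW hδ2 hφ (k := k) (a := 2 * g / r₁)
    (β := γ * k) (ρ := 3 * r₁ / 4) (ξ := σ • u) hB hQI hc hk (fun v hv => by
      rw [real_inner_smul_left, ← hσw]
      exact mul_le_mul_of_nonneg_left ((le_abs_self _).trans (hw v hv)) hσ0.le)
    (by linarith) (by positivity) (by positivity) (by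
      have : 2 * g / r₁ * (3 * r₁ / 4) ^ 2 = 9 / 8 * (g * r₁) := by
        field_simp
        ring
      have := mul_pos hγ hk
      linarith) (by linarith) (by rw [hn, ha]; linarith)
  have hpQ : p ∈ Q := hB (by rw [mem_closedBall, dist_eq_norm]; linarith)
  have hζr : ‖ζ‖ < r := by linarith
  set η := (2 * (2 * g / r₁)) • (p - c) with hη
  have n1 : ‖η‖ ≤ 3 * g := by
    rw [hη, norm_smul, Real.norm_eq_abs, abs_of_pos (by positivity), ← ha]
    gcongr
  clear_value η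
  have n2 := h.norm_le hpQ hζr
  have n3 := h.norm_le hq hζr
  have n4 : ‖Φ p ζ‖ ≤ σ + 3 * g := by
    rw [h1]
    linarith [norm_sub_le (σ • u) η]
  have n5 : ‖ζ‖ ≤ 3 * σ := by
    have := norm_sub_norm_le ζ (Φ p ζ)
    rw [norm_sub_rev] at this
    nlinarith [norm_nonneg ζ]
  refine ⟨ζ, n5, ?_, fun z hz => ?_⟩
  · have e1 : Φ q ζ - σ • u = (Φ q ζ - ζ) - (Φ p ζ - ζ) - η := by
      rw [h1]
      abel
    have e2 := norm_sub_le ((Φ q ζ - ζ) - (Φ p ζ - ζ)) η
    have e3 := norm_sub_le (Φ q ζ - ζ) (Φ p ζ - ζ)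
    have e4 : δ * ‖ζ‖ ≤ δ * (3 * σ) := by gcongr
    have e5 := mul_le_mul_of_nonneg_right hδ hσ0.le
    rw [e1, le_div_iff₀ (by positivity)]
    have e6 : ‖Φ q ζ - ζ - (Φ p ζ - ζ) - η‖ ≤ 6 * (δ * σ) + 3 * g := by linarith
    have e7 := mul_le_mul_of_nonneg_right e6 (show 0 ≤ 2 * N by positivity)
    linarith
  · have a1 := h2 z
    have a2 := h.le_slope F hL hδ2 hQ (hQI.trans (injDomain_subset_segMin F.isExp o)) hq hpQ hζ
    have a3 : inner ℝ (Φ p ζ) (p - q) ≤ k / 16 := by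
      have b1 := (abs_le.1 (hw p hp)).2
      have b2 := (abs_le.1 (hw q hqs)).1
      have b3 : inner ℝ u (p - q) = inner ℝ u (p - c) - inner ℝ u (q - c) := by
        rw [← inner_sub_right, sub_sub_sub_cancel_right]
      have b4 := hS hp
      have b5 := hS hqs
      rw [mem_closedBall] at b4 b5
      have b6 : ‖p - q‖ ≤ 2 * R := by
        rw [← dist_eq_norm]
        linarith [dist_triangle_right p q c]
      have b7 := (abs_le.1 (abs_real_inner_le_norm η (p - q))).1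
      have b8 : ‖η‖ * ‖p - q‖ ≤ 3 * g * (2 * R) := by gcongr
      have b9 := mul_le_mul_of_nonneg_left (show inner ℝ u (p - q) ≤ 2 * w by linarith) hσ0.le
      rw [h1, inner_sub_left, real_inner_smul_left]
      linarith
    have a4 := max_le (show (0 : ℝ) ≤ k / 16 by positivity) a3
    have a5 : max 0 (φ z + cost z o - m - k / 2) ≤ k / 2 := max_le (by positivity) (by linarith)
    simp only [mt] at a1 a2
    linarith

variable [MeasurableSpace M] [BorelSpace M]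

theorem contact_single (F : Facts e) (hW : WeakMTW e) (hN : NoFocalFace e) {φ : M → ℝ}
    (hφ : CConvex φ) {κ : ℝ≥0∞} (hκ : κ ≠ ⊤)
    (H₁ : ∀ B : Set M, IsClosed B →
      μHE[finrank ℝ E] B ≤ κ * μHE[finrank ℝ E] {x | ∃ y ∈ B, y ∈ cSubdiff φ x})
    (H₂ : ∀ A : Set M, IsClosed A →
      μHE[finrank ℝ E] A ≤ κ * μHE[finrank ℝ E] {y | ∃ x ∈ A, y ∈ cSubdiff φ x})
    {y x x' : M} (hy : y ∈ cSubdiff φ x) (hy' : y ∈ cSubdiff φ x') : x = x' := by
  by_contra hne
  have hL : LoeperMax e := ((Reg.tfae F).out 0 1).1 hW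
  have hφc := Reg.CConvex.continuous hφ
  obtain ⟨o, m, c, v, ρ, hρ, hm, hc, hcI, hv, hvc, hP⟩ := config F hW hN hφ hy hy' hne
  generalize hn : finrank ℝ E = n at H₁ H₂
  obtain ⟨r₁, hr₁, hB⟩ := nhds_basis_closedBall.mem_iff.1 ((F.isOpen_injDomain o).mem_nhds hcI)
  obtain ⟨p, hp, hfar⟩ := (isCompact_sec F hφc o m).exists_isMaxOn ⟨c, hc⟩
    (f := fun v => ‖v - c‖) (by fun_prop)
  set ℓ := ‖p - c‖ with hℓd
  have hℓ : 0 < ℓ := (norm_pos_iff.2 (sub_ne_zero.2 hvc)).trans_le (hfar hv)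
  set u := ℓ⁻¹ • (p - c) with hud
  have hu : ‖u‖ = 1 := by
    rw [hud, norm_smul, norm_inv, Real.norm_eq_abs, abs_of_pos hℓ, inv_mul_cancel₀ hℓ.ne']
  have hpu : p - c = ℓ • u := by rw [hud, smul_smul, mul_inv_cancel₀ hℓ.ne', one_smul]
  clear_value u
  set D := diam (univ : Set M) with hD
  have hD0 : 0 ≤ D := diam_nonneg
  set R := 2 * D + 1 with hRd
  have hR : 0 < R := by positivity
  have hS : ∀ k, sec e φ o k ⊆ closedBall c R := fun k a ha => by
    rw [mem_closedBall, dist_eq_norm]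
    linarith [norm_sub_le a c, norm_le_of_sec ha, norm_le_of_sec hc]
  obtain ⟨c₀, hc₀, hframe⟩ := exists_frame (V := TangentSpace 𝓘(ℝ, E) o) hn hℓ hR
  obtain ⟨C₁, hC₁, A₁, hA₁, hup⟩ := upper F hW hn hφ hκ H₂ hm hr₁ hB
  obtain ⟨c₂, hc₂, hlow⟩ := simplex F hn o
  obtain ⟨K, hK, hlip⟩ := exp_lip F o D
  obtain ⟨C₃, hC₃, hbox⟩ := vol_image_box (V := TangentSpace 𝓘(ℝ, E) o) hn hK hlip
  set N : ℝ := n + 1 with hNd
  have hN1 : 1 ≤ N := by simp [hNd]
  set s := min 1 (r₁ / R) with hsd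
  have hs : 0 < s := by positivity
  set γ := min (1 / (32 + 96 * R / r₁)) (r₁ / (18 * N * (8 * D + 1))) with hγd
  have hγ : 0 < γ := by positivity
  have hγ1 : γ * (32 + 96 * R / r₁) ≤ 1 := (le_div_iff₀ (by positivity)).1 (min_le_left _ _)
  have hγ2 : γ * (18 * N * (8 * D + 1)) ≤ r₁ := (le_div_iff₀ (by positivity)).1 (min_le_right _ _)
  clear_value γ
  set X := c₂ * R * γ ^ n * ((s * c₀) ^ n) ^ 2 with hX
  set Y := 4 * ℓ * γ * (κ.toReal * C₃) * C₁ with hY
  have hX0 : 0 < X := by positivity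
  have hY0 : 0 ≤ Y := by positivity
  set θ := min (1 / 2) (X / (Y + 1)) with hθd
  have hθ : 0 < θ := by positivity
  have hθ1 : θ ≤ 1 / 2 := min_le_left _ _
  have hθ2 : θ * (Y + 1) ≤ X := (le_div_iff₀ (by positivity)).1 (min_le_right _ _)
  clear_value θ
  set q := c + ((1 - θ) * ℓ) • u with hqd
  have hq1 : q = c + (1 - θ) • (p - c) := by rw [hqd, hpu, smul_smul]
  have hqs : q ∈ sec e φ o m := by
    rw [hq1]
    exact (Reg.convex_section hL hφ o m).add_smul_sub_mem hc hp ⟨by linarith, by linarith⟩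
  have hqI : q ∈ injDomain e o := by
    have h1 : p ∈ closure (injDomain e o) := by
      have h2 : Tendsto (fun t : ℝ => t • p) (𝓝[<] 1) (𝓝 p) := by
        have : Continuous fun t : ℝ => t • p := by fun_prop
        simpa using (this.tendsto 1).mono_left nhdsWithin_le_nhds
      refine mem_closure_of_tendsto h2 ?_
      filter_upwards [Ioo_mem_nhdsLT one_pos] with t ht
      exact smul_mem_injDomain F.isExp hp.1 ht.1.le ht.2
    have h3 := (convex_injDomain F hW o).combo_interior_closure_mem_interior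
      ((F.isOpen_injDomain o).interior_eq.symm ▸ hcI) h1 hθ (by linarith : 0 ≤ 1 - θ) (by ring)
    have h4 : q = θ • c + (1 - θ) • p := by
      rw [hq1, smul_sub, sub_smul, sub_smul, one_smul, one_smul]
      abel
    rw [h4]
    exact interior_subset h3
  have hqm : φ (e o q) + cost (e o q) o = m :=
    le_antisymm (by have := hqs.2; rwa [cost_comm] at this) (hm _)
  obtain ⟨Q, hQ, hQc, hQI, hBQ, hqQ⟩ := exists_hull (convex_injDomain F hW o)
    (isCompact_closedBall c r₁) (convex_closedBall c r₁) hB hqI ⟨c, mem_closedBall_self hr₁.le⟩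
  obtain ⟨r, Φ, hM⟩ := exists_mix F o hQ hQI (δ := 1 / (18 * N)) (by positivity)
  have hδ : 1 / (18 * N) ≤ 1 / 2 := by gcongr; linarith
  obtain ⟨ε, hε, hlow⟩ := hlow Q _ r Φ hM hδ q hqQ hqI
  have hr := hM.pos
  set ε' := min ε r with hε'd
  have hε' : 0 < ε' := by positivity
  have hε1 : ε' ≤ ε := min_le_left _ _
  have hε2 : ε' ≤ r := min_le_right _ _
  clear_value ε'
  obtain ⟨k, ⟨hk1, hk2⟩, hk0, hk3⟩ := (((nokink F hW hφ hρ hm hc hcI hP
    (A₁ / (s * c₀) + 8 * γ / ε')).and (long F hφc hθ hℓ hu hfar hqI)).and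
    (Ioo_mem_nhdsGT (show 0 < ε' * (4 * θ * ℓ) by positivity))).exists
  have hmono : sec e φ o m ⊆ sec e φ o (m + k) := fun a ha => ⟨ha.1, ha.2.trans (by linarith)⟩
  have hconv : Convex ℝ (sec e φ o (m + k)) := Reg.convex_section hL hφ o _
  obtain ⟨b, w, i₀, z, hb, hw, hout, hin⟩ := hframe (sec e φ o (m + k)) c u
    (isCompact_sec F hφc o _) hconv (hmono hc) hu (by rw [← hpu, add_sub_cancel]; exact hmono hp)
    (hS _)
  have hwA : ∀ i, (A₁ / (s * c₀) + 8 * γ / ε') * k < w i := fun i => by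
    obtain ⟨a, ha, h⟩ := hk1 (b i) (b.orthonormal.1 i)
    exact h.trans_le (hout ha i)
  have hw0 : ∀ i, 0 < w i := fun i => lt_trans (by positivity) (hwA i)
  have hw1 : ∀ i, γ * k / w i ≤ ε' / 8 := fun i => by
    have h1 : 8 * γ / ε' * k ≤ w i := by
      have : 0 ≤ A₁ / (s * c₀) * k := by positivity
      linarith [hwA i]
    rw [div_mul_eq_mul_div, div_le_iff₀ hε'] at h1
    rw [div_le_iff₀ (hw0 i)]
    linarith
  have up := hup k hk0 b _ (fun i => s * (c₀ * w i)) (fun i => by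
    have h1 : A₁ / (s * c₀) * k ≤ w i := by
      have : 0 ≤ 8 * γ / ε' * k := by positivity
      linarith [hwA i]
    rw [div_mul_eq_mul_div, div_le_iff₀ (by positivity)] at h1
    linarith) (box_shrink hconv (hmono hc) (hS _) hin hs (min_le_left _ _)
      ((le_div_iff₀ hR).1 (min_le_right _ _)))
  set σ : Fin n → ℝ := Function.update (fun i => γ * k / w i) i₀ (k / (4 * θ * ℓ)) with hσ
  have hNn : ∀ t : ℝ, 0 < t → t / (2 * N) ≤ t / (2 * n) := fun t ht => by
    have : (0 : ℝ) < n := by exact_mod_cast i₀.pos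
    gcongr
    linarith
  have hdiag : ∀ t : ℝ, 0 < t → t < r → ∀ i, ‖t • b i‖ = t ∧
      ‖Φ q (t • b i) - t • b i‖ ≤ t / (2 * n) := fun t ht htr i => by
    have h1 : ‖t • b i‖ = t := by
      rw [norm_smul, b.orthonormal.1 i, mul_one, Real.norm_eq_abs, abs_of_pos ht]
    refine ⟨h1, (hM.norm_le hqQ (h1.trans_lt htr)).trans (le_trans ?_ (hNn t ht))⟩
    rw [h1, one_div, inv_mul_eq_div]
    gcongr
    norm_num
  have hpts : ∀ i, 0 < σ i ∧ ∃ ζ, ‖ζ‖ ≤ ε ∧ ‖Φ q ζ - σ i • b i‖ ≤ σ i / (2 * n) ∧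
      e o ζ ∈ dset φ o (e o q) m k := fun i => by
    rcases eq_or_ne i i₀ with rfl | hi
    · rw [hσ, Function.update_self]
      have h1 : k / (4 * θ * ℓ) < ε' := (div_lt_iff₀ (by positivity)).2 hk3
      obtain ⟨h2, h3⟩ := hdiag (k / (4 * θ * ℓ)) (by positivity) (by linarith) i
      exact ⟨by positivity, _, by linarith, h3, hb ▸ hk2⟩
    · rw [hσ, Function.update_of_ne hi]
      have h0 := hw0 i
      have h1 := hw1 i
      refine ⟨by positivity, ?_⟩
      rcases le_total (18 * N * w i) r₁ with h | h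
      · obtain ⟨ζ, h2, h3, h4⟩ := thin F hW hM hQc hQI hφ hBQ hc hqQ (hmono hqs)
          (b.orthonormal.1 i) (hS _) (fun a ha => hout ha i) h0 hr₁ hN1 h (by positivity)
          (by field_simp; rfl) hγ hR hγ1 hk0 (by linarith)
        exact ⟨ζ, by linarith, h3.trans (hNn _ (by positivity)), h4⟩
      · obtain ⟨h2, h3⟩ := hdiag (γ * k / w i) (by positivity) (by linarith) i
        refine ⟨_, by linarith, h3, thick F φ _ m ?_⟩
        rw [h2, ← hD, ← mul_div_assoc, div_le_iff₀ h0]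
        have h4 : 18 * N * (γ * (8 * D + 1)) ≤ 18 * N * w i := by linarith
        have h5 := mul_le_mul_of_nonneg_right (le_of_mul_le_mul_left h4 (by positivity)) hk0.le
        have h6 := mul_pos hγ hk0
        have h7 := mul_pos h0 hk0
        linarith
  choose hσ0 ζ h1 h2 h3 using hpts
  have low := hlow b σ ζ _ hσ0 h1 h2 (convex_dset hL φ o _ m k)
    (fun z _ => by linarith) h3
  have mid : μHE[n] {x | ∃ y ∈ dset φ o (e o q) m k, y ∈ cSubdiff φ x} ≤
      ENNReal.ofReal (C₃ * ∏ i, w i) := by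
    refine le_trans (measure_mono ?_) (hbox b c w _ (fun i => (hw0 i).le) hout
      fun a ha => norm_le_of_sec ha)
    rintro x ⟨y, hy, hx⟩
    obtain ⟨a, rfl, ha⟩ := F.hopfRinow o x
    exact ⟨a, ⟨ha, by rw [cost_comm]; exact inside F hL hφ hk0 hqm hy hx⟩, rfl⟩
  set W := ∏ i, w i with hWd
  have hW0 : 0 < W := Finset.prod_pos fun i _ => hw0 i
  have fin : c₂ * ∏ i, σ i ≤ κ.toReal * C₃ * W := by
    rw [← ENNReal.ofReal_le_ofReal_iff (by positivity), mul_assoc,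
      ENNReal.ofReal_mul ENNReal.toReal_nonneg, ENNReal.ofReal_toReal hκ]
    refine low.trans ((H₁ _ (isClosed_dset φ o _ m k)).trans ?_)
    gcongr
  have p1 : ∏ i, s * (c₀ * w i) = (s * c₀) ^ n * W := by
    simp only [← mul_assoc, Finset.prod_mul_distrib, Finset.prod_const, Finset.card_univ,
      Fintype.card_fin, hWd, mul_pow]
  have p2 : (∏ i, σ i) * W * (4 * θ * ℓ * γ) = R * (γ ^ n * k ^ n) := by
    have p3 : (∏ i, γ * k / w i) * W = γ ^ n * k ^ n := by
      rw [hWd, ← Finset.prod_mul_distrib, ← mul_pow,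
        Finset.prod_congr rfl fun i _ => div_mul_cancel₀ _ (hw0 i).ne']
      simp
    rw [← p3, hσ, Finset.prod_update_of_mem (Finset.mem_univ _),
      Finset.prod_eq_mul_prod_sdiff_singleton_of_mem (Finset.mem_univ i₀) fun i => γ * k / w i, hw]
    field_simp
  rw [p1] at up
  have hkn : 0 < k ^ n := by positivity
  have f1 := mul_le_mul_of_nonneg_right fin
    (show 0 ≤ W * (4 * θ * ℓ * γ) * ((s * c₀) ^ n) ^ 2 by positivity)
  have f2 := mul_le_mul_of_nonneg_left up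
    (show 0 ≤ κ.toReal * C₃ * (4 * θ * ℓ * γ) by positivity)
  have f3 : X * k ^ n ≤ θ * Y * k ^ n := by
    calc X * k ^ n = c₂ * ((∏ i, σ i) * W * (4 * θ * ℓ * γ)) * ((s * c₀) ^ n) ^ 2 := by
          rw [p2, hX]
          ring
      _ ≤ _ := by
          rw [hY]
          linarith
  have f4 := le_of_mul_le_mul_right f3 hkn
  linarith

end Vale.Agent.N234N
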