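import Vale.Agent.N234.Defs
import Vale.Agent.P234Z57.Defs

open Bundle Manifold Filter MeasureTheory
open scoped Manifold Topology ENNReal

namespace Vale.Agent.N234N

open Vale.Agent.P234 Vale.Agent.P234Z57 Vale.Agent.N234

variable {E : Type*} [NormedAddCommGroup E] [NormedSpace ℝ E]
  {M : Type*} [MetricSpace M] [ChartedSpace E M]
  [RiemannianBundle (fun x : M => TangentSpace 𝓘(ℝ, E) x)]

/-- `v` is a conjugate vector at `y`: the derivative of the exponential map at `v` vanishes in some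
direction `w`. -/
def Conjugate (e : ∀ x : M, TangentSpace 𝓘(ℝ, E) x → M) (y : M) (v : TangentSpace 𝓘(ℝ, E) y) :
    Prop :=
  ∃ w : TangentSpace 𝓘(ℝ, E) y, w ≠ 0 ∧ vel E (fun t : ℝ => e y (v + t • w)) 0 = 0

/-- `v` lies in the tangent cut locus at `y` (minimizing, not in the injectivity domain) and is the
only minimizing vector with its endpoint. -/
def PurelyFocal (e : ∀ x : M, TangentSpace 𝓘(ℝ, E) x → M) (y : M) (v : TangentSpace 𝓘(ℝ, E) y) :
    Prop :=
  dist y (e y v) = ‖v‖ ∧ v ∉ injDomain e y ∧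
    ∀ u : TangentSpace 𝓘(ℝ, E) y, dist y (e y u) = ‖u‖ → e y u = e y v → u = v

/-- No segment of positive length inside a tangent cut locus starts at a purely focal vector. -/
def NoFocalFace (e : ∀ x : M, TangentSpace 𝓘(ℝ, E) x → M) : Prop :=
  ∀ (y : M) (v w : TangentSpace 𝓘(ℝ, E) y), v ≠ w →
    (∀ u ∈ segment ℝ v w, dist y (e y u) = ‖u‖ ∧ u ∉ injDomain e y) → ¬ PurelyFocal e y v

/-- No minimizing vector is conjugate. -/
def Nonfocal (e : ∀ x : M, TangentSpace 𝓘(ℝ, E) x → M) : Prop :=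
  ∀ (y : M) (v : TangentSpace 𝓘(ℝ, E) y), dist y (e y v) = ‖v‖ → ¬ Conjugate e y v

/-- Between probability measures that lie between `a vol` and `b vol` the only optimal plan is
carried by a homeomorphism `S` with a modulus of continuity `w` that depends only on `a`, `b`, and
exactly one minimizing vector joins `x` to `S x`. -/
def UniformTransport [MeasurableSpace M] (e : ∀ x : M, TangentSpace 𝓘(ℝ, E) x → M)
    (vol : Measure M) : Prop :=
  ∀ a b : ℝ≥0∞, a ≠ 0 → b ≠ ⊤ → ∃ w : ℝ → ℝ, Tendsto w (𝓝 0) (𝓝 0) ∧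
    ∀ μ ν : Measure M, IsProbabilityMeasure μ → IsProbabilityMeasure ν →
      a • vol ≤ μ → μ ≤ b • vol → a • vol ≤ ν → ν ≤ b • vol →
      ∃ S : M → M, IsHomeomorph S ∧ (∀ x x', dist (S x) (S x') ≤ w (dist x x')) ∧
        IsOnlyPlan μ ν S ∧
        ∀ x, ∃! v : TangentSpace 𝓘(ℝ, E) x, dist x (e x v) = ‖v‖ ∧ e x v = S x

end Vale.Agent.N234N
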