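import Vale.Agent.N234N.Conv
import Vale.Agent.N234N.Defs

/-!
# P234: selection, no kink, upper and lower volume estimates
-/

section
/-!
# P234: an extremal contact configuration
-/

set_option maxSynthPendingDepth 3
set_option linter.unusedSectionVars false

open Bundle Manifold Set Filter MeasureTheory Module Metric
open scoped ContDiff Manifold Topology ENNReal

namespace Vale.Agent.N234N

open Vale.Agent.P234 Vale.Agent.N234

variable {E : Type*} [NormedAddCommGroup E] [NormedSpace ℝ E] [FiniteDimensional ℝ E]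
  {M : Type*} [MetricSpace M] [ChartedSpace E M]
  [RiemannianBundle (fun x : M => TangentSpace 𝓘(ℝ, E) x)]
  [IsManifold 𝓘(ℝ, E) ∞ M]
  [IsContMDiffRiemannianBundle 𝓘(ℝ, E) ∞ E (fun x : M => TangentSpace 𝓘(ℝ, E) x)]
  [CompactSpace M]
  {e : ∀ x : M, TangentSpace 𝓘(ℝ, E) x → M}

lemma S_inj (F : Facts e) (hL : LoeperMax e) {o : M} {p q : TangentSpace 𝓘(ℝ, E) o}
    (hp : p ∈ segMin e o) (hq : q ∈ injDomain e o) :
    (2 / 3 : ℝ) • p + (1 / 3 : ℝ) • q ∈ injDomain e o := by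
  obtain ⟨a, ha, hq⟩ := (mem_injDomain_iff F.isExp).1 hq
  have h0 : 0 < 2 * a + 1 := by linarith
  have h1 : 0 < 3 * a := by linarith
  have h2 := smul_mem_injDomain F.isExp (hL o p (a • q) (1 / (2 * a + 1)) hp hq (by positivity)
    ((div_le_one h0).2 (by linarith))).1 (t := (2 * a + 1) / (3 * a)) (by positivity)
    ((div_lt_one h1).2 (by linarith))
  have h3 : (2 * a + 1) / (3 * a) * (1 - 1 / (2 * a + 1)) = 2 / 3 := by field_simp; ring
  have h4 : (2 * a + 1) / (3 * a) * (1 / (2 * a + 1) * a) = 1 / 3 := by field_simp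
  rwa [smul_add, smul_smul, smul_smul, smul_smul, h3, mul_assoc, h4] at h2

lemma inj_of_vel {V : Type*} [NormedAddCommGroup V] [NormedSpace ℝ V] {f : V → M} {v : V}
    (hf : MDifferentiableAt 𝓘(ℝ, V) 𝓘(ℝ, E) f v)
    (h : ¬ ∃ w : V, w ≠ 0 ∧ P234Z57.vel E (fun t : ℝ => f (v + t • w)) 0 = 0) :
    Function.Injective (mfderiv 𝓘(ℝ, V) 𝓘(ℝ, E) f v) := by
  refine (injective_iff_map_eq_zero _).2 fun (w : V) hw => ?_
  by_contra h0
  refine h ⟨w, h0, ?_⟩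
  have h1 : HasDerivAt (fun t : ℝ => v + t • w) w 0 := by
    simpa using ((hasDerivAt_id (0 : ℝ)).smul_const w).const_add v
  have h3 : HasMFDerivAt 𝓘(ℝ, V) 𝓘(ℝ, E) f (v + (0 : ℝ) • w) (mfderiv 𝓘(ℝ, V) 𝓘(ℝ, E) f v) := by
    have : v + (0 : ℝ) • w = v := by simp
    rw [this]
    exact hf.hasMFDerivAt
  have h4 := (h3.comp (0 : ℝ) h1.hasFDerivAt.hasMFDerivAt).mfderiv
  change mfderiv 𝓘(ℝ, ℝ) 𝓘(ℝ, E) (f ∘ fun t : ℝ => v + t • w) 0 (1 : ℝ) = 0
  rw [h4]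
  change mfderiv 𝓘(ℝ, V) 𝓘(ℝ, E) f v ((1 : ℝ) • w) = 0
  rw [one_smul]
  exact hw

lemma inj_of_not_conj (F : Facts e) {y : M} {v : TangentSpace 𝓘(ℝ, E) y} (h : ¬ Conjugate e y v) :
    Function.Injective (mfderiv 𝓘(ℝ, TangentSpace 𝓘(ℝ, E) y) 𝓘(ℝ, E) (e y) v) :=
  inj_of_vel ((contMDiff_exp_fiber F.isExp y).mdifferentiableAt (by simp)) h

lemma S_meet (F : Facts e) (hL : LoeperMax e) (hN : NoFocalFace e) {φ : M → ℝ} (hφ : CConvex φ)
    {o : M} {m : ℝ} {a b : TangentSpace 𝓘(ℝ, E) o} (ha : a ∈ sec e φ o m) (hb : b ∈ sec e φ o m)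
    (hab : a ≠ b) : ∃ q ∈ sec e φ o m, q ∈ injDomain e o := by
  by_contra hno
  have hno' : ∀ q ∈ sec e φ o m, q ∉ injDomain e o := fun q h1 h2 => hno ⟨q, h1, h2⟩
  have hK : Convex ℝ (sec e φ o m) := Reg.convex_section hL hφ o m
  obtain ⟨v, hv, hmin⟩ := (isCompact_sec F (Reg.CConvex.continuous hφ) o m).exists_isMinOn
    ⟨a, ha⟩ continuous_norm.continuousOn
  have hu : ∀ w ∈ segMin e o, e o w = e o v → w = v := by
    intro w hw hwv
    have hn : ‖w‖ = ‖v‖ := by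
      have h1 : dist o (e o w) = ‖w‖ := hw
      rw [← h1, hwv, hv.1]
    have h2 : ‖v‖ ≤ ‖(1 / 2 : ℝ) • w + (1 / 2 : ℝ) • v‖ :=
      hmin (hK ⟨hw, by rw [hwv]; exact hv.2⟩ hv (by norm_num) (by norm_num) (by norm_num))
    rw [← smul_add, norm_smul, Real.norm_eq_abs, abs_of_pos (by norm_num)] at h2
    have h3 := parallelogram_law_with_norm ℝ w v
    rw [hn] at h3
    have h4 : ‖w - v‖ * ‖w - v‖ ≤ 0 := by nlinarith [norm_nonneg v]
    exact sub_eq_zero.1 (norm_eq_zero.1 (mul_self_eq_zero.1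
      (h4.antisymm (mul_self_nonneg _))))
  obtain ⟨w, hw, hvw⟩ : ∃ w ∈ sec e φ o m, v ≠ w := by
    by_cases h : v = a
    · exact ⟨b, hb, h ▸ hab⟩
    · exact ⟨a, ha, h⟩
  exact hN o v w hvw (fun u h =>
    ⟨(hK.segment_subset hv hw h).1, hno' u (hK.segment_subset hv hw h)⟩) ⟨hv.1, hno' v hv, hu⟩

theorem config (F : Facts e) (hW : WeakMTW e) (hN : NoFocalFace e) {φ : M → ℝ} (hφ : CConvex φ)
    {y x x' : M} (hy : y ∈ cSubdiff φ x) (hy' : y ∈ cSubdiff φ x') (hne : x ≠ x') :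
    ∃ (o : M) (m : ℝ) (c v : TangentSpace 𝓘(ℝ, E) o) (ρ : ℝ), 0 < ρ ∧
      (∀ z, m ≤ φ z + cost z o) ∧ c ∈ sec e φ o m ∧ c ∈ injDomain e o ∧ v ∈ sec e φ o m ∧ v ≠ c ∧
      ∀ ζ, ‖ζ‖ < ρ → e o ζ ∈ cSubdiff φ (e o c) → cost (e o c) (e o ζ) ≤ cost (e o c) o := by
  have hL : LoeperMax e := ((Reg.tfae F).out 0 1).1 hW
  have hφc := Reg.CConvex.continuous hφ
  have hT : IsClosed {p : M × M × M | p.1 ∈ cSubdiff φ p.2.1 ∧ p.1 ∈ cSubdiff φ p.2.2 ∧
      dist x x' ≤ dist p.2.1 p.2.2} :=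
    (isClosed_sub hφc continuous_snd.fst continuous_fst).inter
      ((isClosed_sub hφc continuous_snd.snd continuous_fst).inter
        (isClosed_le continuous_const (continuous_snd.fst.dist continuous_snd.snd)))
  obtain ⟨⟨o, x₁, x₂⟩, ⟨h1, h2, h3⟩, hmax⟩ := hT.isCompact.exists_isMaxOn
    ⟨(y, x, x'), hy, hy', le_rfl⟩ (f := fun p => φ p.2.1 + cost p.2.1 p.1)
    ((hφc.comp continuous_snd.fst).add (cost_cont continuous_snd.fst continuous_fst)).continuousOn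
  simp only at h1 h2 h3
  obtain ⟨a, rfl, da⟩ := F.hopfRinow o x₁
  obtain ⟨b, rfl, db⟩ := F.hopfRinow o x₂
  set m := φ (e o a) + cost (e o a) o with hmd
  have hm : ∀ z, m ≤ φ z + cost z o := fun z => by linarith [h1 z]
  have ha : a ∈ sec e φ o m := ⟨da, by rw [cost_comm]⟩
  have hb : b ∈ sec e φ o m := ⟨db, by rw [cost_comm]; linarith [h2 (e o a)]⟩
  have hab : a ≠ b := fun h => by
    rw [h, dist_self] at h3
    exact hne (dist_le_zero.1 h3)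
  have hK : Convex ℝ (sec e φ o m) := Reg.convex_section hL hφ o m
  have mid : ∀ {u v}, u ∈ sec e φ o m → v ∈ sec e φ o m →
      (1 / 2 : ℝ) • u + (1 / 2 : ℝ) • v ∈ sec e φ o m := fun hu hv =>
    hK hu hv (by norm_num) (by norm_num) (by norm_num)
  obtain ⟨q, hq, hqI⟩ := S_meet F hL hN hφ ha hb hab
  have hcI := S_inj F hL (mid ha hb).1 hqI
  have hc := hK (mid ha hb) hq (a := 2 / 3) (b := 1 / 3) (by norm_num) (by norm_num) (by norm_num)
  set c := (2 / 3 : ℝ) • ((1 / 2 : ℝ) • a + (1 / 2 : ℝ) • b) + (1 / 3 : ℝ) • q with hcd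
  have ha' : c - (1 / 2 : ℝ) • (a - c) ∈ sec e φ o m := by
    have : c - (1 / 2 : ℝ) • (a - c) = (1 / 2 : ℝ) • b + (1 / 2 : ℝ) • q := by
      rw [hcd]
      module
    rw [this]
    exact mid hb hq
  have hb' : c - (1 / 2 : ℝ) • (b - c) ∈ sec e φ o m := by
    have : c - (1 / 2 : ℝ) • (b - c) = (1 / 2 : ℝ) • a + (1 / 2 : ℝ) • q := by
      rw [hcd]
      module
    rw [this]
    exact mid ha hq
  clear_value c
  obtain ⟨r₁, hr₁, hB⟩ := nhds_basis_closedBall.mem_iff.1 ((F.isOpen_injDomain o).mem_nhds hcI)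
  obtain ⟨r, Φ, h⟩ := exists_mix F o (isCompact_closedBall c r₁) hB (δ := 1 / 2) (by norm_num)
  obtain ⟨v, hv, hvc⟩ : ∃ v ∈ sec e φ o m, v ≠ c := by
    by_cases h : a = c
    · exact ⟨b, hb, h ▸ hab.symm⟩
    · exact ⟨a, ha, h⟩
  refine ⟨o, m, c, v, r, h.pos, hm, hc, hcI, hv, hvc, fun ζ hζ hz => ?_⟩
  have p1 := h.product F hL le_rfl (convex_closedBall c r₁) hφ hm hr₁ subset_rfl hc ha ha' hζ hz
  have p2 := h.product F hL le_rfl (convex_closedBall c r₁) hφ hm hr₁ subset_rfl hc hb hb' hζ hz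
  have p3 : φ (e o a) + cost (e o a) (e o ζ) ≤ m :=
    hmax (a := (e o ζ, e o a, e o b)) ⟨p1, p2, h3⟩
  linarith [hz (e o a), hm (e o c)]

end Vale.Agent.N234N

end

section
set_option maxSynthPendingDepth 3
set_option linter.unusedSectionVars false

open Bundle Manifold Set Filter MeasureTheory Module Metric
open scoped ContDiff Manifold Topology ENNReal

namespace Vale.Agent.N234N

open Vale.Agent.P234 Vale.Agent.N234

variable {E : Type*} [NormedAddCommGroup E] [NormedSpace ℝ E] [FiniteDimensional ℝ E]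
  {M : Type*} [MetricSpace M] [ChartedSpace E M]
  [RiemannianBundle (fun x : M => TangentSpace 𝓘(ℝ, E) x)]
  [IsManifold 𝓘(ℝ, E) ∞ M]
  [IsContMDiffRiemannianBundle 𝓘(ℝ, E) ∞ E (fun x : M => TangentSpace 𝓘(ℝ, E) x)]
  [CompactSpace M]
  {e : ∀ x : M, TangentSpace 𝓘(ℝ, E) x → M}

lemma X_limit (F : Facts e) (hW : WeakMTW e) {φ : M → ℝ} (hφ : CConvex φ) {o : M} {m r r₁ : ℝ}
    {c : TangentSpace 𝓘(ℝ, E) o}
    {Φ : TangentSpace 𝓘(ℝ, E) o → TangentSpace 𝓘(ℝ, E) o → TangentSpace 𝓘(ℝ, E) o}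
    (h : Mix e o (closedBall c r₁) (1 / 2) r Φ) (hr₁ : 0 < r₁)
    (hB : closedBall c r₁ ⊆ injDomain e o) (hm : ∀ z, m ≤ φ z + cost z o)
    (hc : c ∈ sec e φ o m) (U : Ultrafilter ℝ) (hU : (U : Filter ℝ) ≤ 𝓝[>] 0)
    {ξ : ℝ → TangentSpace 𝓘(ℝ, E) o} {ξ₀ : TangentSpace 𝓘(ℝ, E) o} (hξ : Tendsto ξ U (𝓝 ξ₀))
    (hb : ∀ᶠ k in (U : Filter ℝ), ‖ξ k‖ ≤ r / 8 ∧
      ∀ q ∈ sec e φ o (m + k), inner ℝ (ξ k) (q - c) ≤ k / 4) :
    ∃ ζ, ‖ζ‖ ≤ r / 2 ∧ Φ c ζ = ξ₀ ∧ e o ζ ∈ cSubdiff φ (e o c) := by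
  have hr := h.pos
  have hX := (contMDiff_exp_fiber F.isExp o).continuous
  have hk : Tendsto (fun k : ℝ => k) U (𝓝 0) := hU.trans nhdsWithin_le_nhds
  have hs : Tendsto (fun k : ℝ => √k) U (𝓝 0) := by simpa using hk.sqrt
  have ev : ∀ᶠ k in (U : Filter ℝ), ∃ z : TangentSpace 𝓘(ℝ, E) o × TangentSpace 𝓘(ℝ, E) o,
      ‖z.1 - c‖ ≤ √k ∧ √k < r₁ ∧ ‖z.2‖ ≤ r / 2 ∧ Φ z.1 z.2 = ξ k - (2 * 1 : ℝ) • (z.1 - c) ∧
      ∀ x, cost x o - cost x (e o z.2) - mt e o z.1 z.2 ≤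
        max 0 (φ x + cost x o - m - k / 2) := by
    filter_upwards [hb, hU self_mem_nhdsWithin, hs.eventually_lt_const hr₁,
      hs.eventually_lt_const (show 0 < r / 16 by positivity)] with k h1 h2 h3 h4
    have h2' : 0 < k := h2
    obtain ⟨q, -, a1, ζ, a2, a3, a4⟩ := h.support F hW le_rfl hφ subset_rfl hB hc h2' h1.2 le_rfl
      one_pos (Real.sqrt_nonneg k) (by rw [Real.sq_sqrt h2'.le]; linarith) h3
      (by linarith [h1.1])
    exact ⟨(q, ζ), a1, h3, a2, a3, a4⟩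
  obtain ⟨z, hz⟩ := ev.choice
  have t1 : Tendsto (fun k => (z k).1 - c) U (𝓝 0) :=
    squeeze_zero_norm' (hz.mono fun k hk => hk.1) hs
  have t2 : Tendsto (fun k => (z k).1) U (𝓝 c) := tendsto_sub_nhds_zero_iff.1 t1
  obtain ⟨ζ, hζ, t3⟩ := (isCompact_closedBall (0 : TangentSpace 𝓘(ℝ, E) o)
    (r / 2)).ultrafilter_le_nhds (U.map fun k => (z k).2)
      (le_principal_iff.2 (hz.mono fun k hk => mem_closedBall_zero_iff.2 hk.2.2.1))
  have t4 : Tendsto (fun k => (z k).2) U (𝓝 ζ) := t3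
  have hζ' := mem_closedBall_zero_iff.1 hζ
  refine ⟨ζ, hζ', ?_, fun x => ?_⟩
  · have t5 : Tendsto z U (𝓝[closedBall c r₁ ×ˢ ball 0 r] (c, ζ)) := by
      refine tendsto_nhdsWithin_iff.2 ⟨t2.prodMk_nhds t4, hz.mono fun k hk => ⟨?_, ?_⟩⟩
      · rw [mem_closedBall, dist_eq_norm]
        exact hk.1.trans hk.2.1.le
      · exact mem_ball_zero_iff.2 (by linarith [hk.2.2.1])
    have t6 := (h.cont (c, ζ) ⟨mem_closedBall_self hr₁.le,
      mem_ball_zero_iff.2 (by linarith)⟩).tendsto.comp t5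
    have t7 := hξ.sub (t1.const_smul (2 * 1 : ℝ))
    rw [smul_zero, sub_zero] at t7
    exact tendsto_nhds_unique t6 (t7.congr' (hz.mono fun k hk => hk.2.2.2.1.symm))
  · have c1 : Continuous fun p : TangentSpace 𝓘(ℝ, E) o × TangentSpace 𝓘(ℝ, E) o =>
        cost x o - cost x (e o p.2) - mt e o p.1 p.2 :=
      (continuous_const.sub (cost_cont continuous_const (hX.comp continuous_snd))).sub
        ((cost_cont (hX.comp continuous_fst) continuous_const).sub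
          (cost_cont (hX.comp continuous_fst) (hX.comp continuous_snd)))
    have t5 := (c1.tendsto (c, ζ)).comp (t2.prodMk_nhds t4)
    have t6 : Tendsto (fun k : ℝ => max 0 (φ x + cost x o - m - k / 2)) U
        (𝓝 (max 0 (φ x + cost x o - m - 0 / 2))) :=
      tendsto_const_nhds.max (tendsto_const_nhds.sub (hk.div_const 2))
    have t7 := le_of_tendsto_of_tendsto t5 t6 (hz.mono fun k hk => hk.2.2.2.2 x)
    have t8 := hc.2
    rw [max_eq_right (by linarith [hm x])] at t7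
    rw [cost_comm] at t8
    simp only [mt] at t7
    linarith

theorem nokink (F : Facts e) (hW : WeakMTW e) {φ : M → ℝ} (hφ : CConvex φ) {o : M} {m ρ : ℝ}
    {c : TangentSpace 𝓘(ℝ, E) o} (hρ : 0 < ρ) (hm : ∀ z, m ≤ φ z + cost z o)
    (hc : c ∈ sec e φ o m) (hcI : c ∈ injDomain e o)
    (hP : ∀ ζ, ‖ζ‖ < ρ → e o ζ ∈ cSubdiff φ (e o c) → cost (e o c) (e o ζ) ≤ cost (e o c) o)
    (A : ℝ) : ∀ᶠ k in 𝓝[>] (0 : ℝ), ∀ u : TangentSpace 𝓘(ℝ, E) o, ‖u‖ = 1 →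
      ∃ q ∈ sec e φ o (m + k), A * k < |inner ℝ u (q - c)| := by
  by_contra hcon
  have hfr := frequently_iff_neBot.1 (not_eventually.1 hcon)
  set U := Ultrafilter.of (𝓝[>] (0 : ℝ) ⊓ 𝓟 {k | ¬ ∀ u : TangentSpace 𝓘(ℝ, E) o, ‖u‖ = 1 →
      ∃ q ∈ sec e φ o (m + k), A * k < |inner ℝ u (q - c)|}) with hUd
  have hU : (U : Filter ℝ) ≤ 𝓝[>] 0 := (Ultrafilter.of_le _).trans inf_le_left
  have ev : ∀ᶠ k in (U : Filter ℝ), ∃ u : TangentSpace 𝓘(ℝ, E) o, ‖u‖ = 1 ∧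
      ∀ q ∈ sec e φ o (m + k), |inner ℝ u (q - c)| ≤ A * k := by
    filter_upwards [le_principal_iff.1 ((Ultrafilter.of_le _).trans inf_le_right)] with k hk
    simpa only [not_forall, not_exists, not_and, not_lt, exists_prop] using hk
  obtain ⟨u, hu⟩ := ev.choice
  obtain ⟨u₀, hu₀, t3⟩ := (isCompact_sphere (0 : TangentSpace 𝓘(ℝ, E) o) 1).ultrafilter_le_nhds
    (U.map u) (le_principal_iff.2 (hu.mono fun k hk => mem_sphere_zero_iff_norm.2 hk.1))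
  have t4 : Tendsto u U (𝓝 u₀) := t3
  have hu1 := mem_sphere_zero_iff_norm.1 hu₀
  obtain ⟨r₁, hr₁, hB⟩ := nhds_basis_closedBall.mem_iff.1 ((F.isOpen_injDomain o).mem_nhds hcI)
  obtain ⟨r, Φ, h⟩ := exists_mix F o (isCompact_closedBall c r₁) hB (δ := 1 / 2) (by norm_num)
  have hr := h.pos
  have hcQ : c ∈ closedBall c r₁ := mem_closedBall_self hr₁.le
  have hA : 0 < max A 1 := lt_max_of_lt_right one_pos
  obtain ⟨s, s0, s1, s2, s3⟩ : ∃ s : ℝ, 0 < s ∧ s * max A 1 ≤ 1 / 4 ∧ s ≤ r / 8 ∧ s ≤ ρ / 4 :=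
    ⟨min (1 / 4 / max A 1) (min (r / 8) (ρ / 4)), by positivity,
      (le_div_iff₀ hA).1 (min_le_left _ _), (min_le_right _ _).trans (min_le_left _ _),
      (min_le_right _ _).trans (min_le_right _ _)⟩
  obtain ⟨p, hp, dp⟩ := F.hopfRinow (e o c) o
  have key : ∀ σ : ℝ, |σ| = s → ∃ p₁ : TangentSpace 𝓘(ℝ, E) (e o c), ‖p₁‖ ^ 2 ≤ ‖p‖ ^ 2 ∧
      ∀ v, σ * inner ℝ u₀ v =
        inner ℝ (p₁ - p) (mfderiv 𝓘(ℝ, TangentSpace 𝓘(ℝ, E) o) 𝓘(ℝ, E) (e o) c v) := by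
    intro σ hσ
    obtain ⟨ζ, z1, z2, z3⟩ := X_limit F hW hφ h hr₁ hB hm hc U hU (t4.const_smul σ) (by
      filter_upwards [hu, hU self_mem_nhdsWithin] with k hk k0
      have k0' : 0 < k := k0
      refine ⟨by rw [norm_smul, hk.1, Real.norm_eq_abs, hσ]; linarith, fun q hq => ?_⟩
      rw [real_inner_smul_left]
      refine (le_abs_self _).trans ?_
      rw [abs_mul, hσ]
      have a1 := mul_le_mul_of_nonneg_left
        ((hk.2 q hq).trans (mul_le_mul_of_nonneg_right (le_max_left A 1) k0'.le)) s0.le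
      have a2 := mul_le_mul_of_nonneg_right s1 k0'.le
      linarith)
    have z4 : ‖ζ‖ < r := by linarith
    have z5 := h.norm_le hcQ z4
    have z6 := norm_sub_norm_le ζ (Φ c ζ)
    rw [norm_sub_rev, z2, norm_smul, hu1, Real.norm_eq_abs, hσ] at z6
    rw [z2] at z5
    have z7 := hP ζ (by linarith) z3
    obtain ⟨p₁, hp₁, dp₁⟩ := F.hopfRinow (e o c) (e o ζ)
    refine ⟨p₁, ?_, fun v => ?_⟩
    · simp only [cost, dp, dp₁] at z7
      linarith
    · rw [← real_inner_smul_left, ← z2]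
      exact h.vec F hcQ z4 (show dist _ _ = _ by rw [hp, dp]) hp
        (show dist _ _ = _ by rw [hp₁, dp₁]) hp₁ v
  obtain ⟨a, a1, a2⟩ := key s (abs_of_pos s0)
  obtain ⟨b, b1, b2⟩ := key (-s) (by rw [abs_neg, abs_of_pos s0])
  obtain ⟨v, hv⟩ := mfderiv_surj F hcI (a - p + (b - p))
  have h1 : a - p + (b - p) = 0 := by
    refine inner_self_eq_zero (𝕜 := ℝ).1 ?_
    have a3 := a2 v
    have b3 := b2 v
    rw [hv] at a3 b3
    rw [inner_add_left, ← a3, ← b3]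
    ring
  have h2 : a = p + (a - p) := by abel
  have h3 : b = p - (a - p) := by
    rw [eq_neg_of_add_eq_zero_left h1]
    abel
  have h4 := norm_add_sq_real p (a - p)
  have h5 := norm_sub_sq_real p (a - p)
  rw [← h2] at h4
  rw [← h3] at h5
  have h6 : a - p = 0 := by
    refine norm_eq_zero.1 (pow_eq_zero_iff two_ne_zero |>.1 (le_antisymm ?_ (sq_nonneg _)))
    linarith
  have h7 := a2 u₀
  rw [h6, inner_zero_left, real_inner_self_eq_norm_sq, hu1] at h7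
  linarith

end Vale.Agent.N234N

end

section
set_option maxSynthPendingDepth 3
set_option linter.unusedSectionVars false

open Bundle Manifold Set Filter MeasureTheory Module Metric
open scoped ContDiff Manifold Topology ENNReal

namespace Vale.Agent.N234N

open Vale.Agent.P234 Vale.Agent.N234

variable {E : Type*} [NormedAddCommGroup E] [NormedSpace ℝ E] [FiniteDimensional ℝ E]
  {M : Type*} [MetricSpace M] [ChartedSpace E M]
  [RiemannianBundle (fun x : M => TangentSpace 𝓘(ℝ, E) x)]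
  [IsManifold 𝓘(ℝ, E) ∞ M]
  [IsContMDiffRiemannianBundle 𝓘(ℝ, E) ∞ E (fun x : M => TangentSpace 𝓘(ℝ, E) x)]
  [CompactSpace M]
  {e : ∀ x : M, TangentSpace 𝓘(ℝ, E) x → M}

section Ubox

variable {V : Type*} [NormedAddCommGroup V] [InnerProductSpace ℝ V] {n : ℕ}
  {b : OrthonormalBasis (Fin n) ℝ V}

lemma U_closed (z : V) (w : Fin n → ℝ) : IsClosed (box b z w) := by
  have : box b z w = ⋂ i, {u | |inner ℝ (b i) (u - z)| ≤ w i} := by
    ext u
    simp only [box, mem_ofPred_eq, mem_iInter]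
  rw [this]
  exact isClosed_iInter fun i => isClosed_le (by fun_prop) continuous_const

lemma U_norm {x : V} {w : Fin n → ℝ} {t : ℝ} (hx : x ∈ box b 0 w) (hw : ∀ i, w i ≤ t) :
    ‖x‖ ≤ n * t := by
  rw [← b.sum_repr' x]
  refine (norm_sum_le _ _).trans ((Finset.sum_le_sum (g := fun _ => t) fun i _ => ?_).trans
    (by simp))
  rw [norm_smul, b.orthonormal.1 i, mul_one, Real.norm_eq_abs]
  have := hx i
  rw [sub_zero] at this
  exact this.trans (hw i)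

lemma U_axis (z : V) {w : Fin n → ℝ} (hw : ∀ i, 0 < w i) (i : Fin n) {σ : ℝ} (hσ : |σ| = w i) :
    z + σ • b i ∈ box b z w := by
  intro j
  rw [add_sub_cancel_left, real_inner_smul_right, orthonormal_iff_ite.1 b.orthonormal j i]
  split_ifs with h
  · rw [mul_one, hσ, h]
  · rw [mul_zero, abs_zero]
    exact (hw j).le

end Ubox

section Umix

variable {o : M} {Q : Set (TangentSpace 𝓘(ℝ, E) o)} {r : ℝ}
  {Φ : TangentSpace 𝓘(ℝ, E) o → TangentSpace 𝓘(ℝ, E) o → TangentSpace 𝓘(ℝ, E) o}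

lemma U_colip (F : Facts e) (h : Mix e o Q (1 / 2) r Φ) (hQ : Convex ℝ Q)
    {a b : TangentSpace 𝓘(ℝ, E) o} (ha : a ∈ Q) (hb : b ∈ Q) :
    dist a b ≤ 8 * diam (univ : Set M) / r * dist (e o a) (e o b) := by
  have hr := h.pos
  have hD : 0 ≤ diam (univ : Set M) := diam_nonneg
  rcases eq_or_ne b a with rfl | hne
  · simp
  have hn : 0 < ‖b - a‖ := norm_pos_iff.2 (sub_ne_zero.2 hne)
  set ζ := (r / 2 / ‖b - a‖) • (b - a) with hζ
  have n1 : ‖ζ‖ = r / 2 := by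
    rw [hζ, norm_smul, Real.norm_eq_abs, abs_of_pos (by positivity)]
    field_simp
  have n2 : inner ℝ ζ (b - a) = r / 2 * ‖b - a‖ := by
    rw [hζ, real_inner_smul_left, real_inner_self_eq_norm_sq]
    field_simp
  have m0 := (abs_le.1 (h.mixed hQ ha hb (ζ := ζ) (by linarith) (ξ := 0) (by simpa using hr))).1
  rw [mt_zero F, mt_zero F, sub_zero ζ, n1, n2] at m0
  have c1 := Reg.cost_sub_cost_le (e o a) (e o b) o
  have c2 := Reg.cost_sub_cost_le (e o b) (e o a) (e o ζ)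
  rw [dist_comm (e o b)] at c2
  simp only [mt] at m0
  rw [dist_comm a, dist_eq_norm, div_mul_eq_mul_div, le_div_iff₀ hr]
  linarith

lemma U_near (F : Facts e) (hL : LoeperMax e) (h : Mix e o Q (1 / 2) r Φ) (hQ : Convex ℝ Q)
    (hQs : Q ⊆ segMin e o) {n : ℕ} {b : OrthonormalBasis (Fin n) ℝ (TangentSpace 𝓘(ℝ, E) o)}
    {z q ζ : TangentSpace 𝓘(ℝ, E) o} {w : Fin n → ℝ} {k : ℝ} (hk : 0 < k) (hw : ∀ i, 0 < w i)
    (hB : box b z w ⊆ Q) (hq : q ∈ box b z fun i => w i / 2) (hζ : ‖ζ‖ ≤ r / 2)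
    (hP : ∀ u ∈ box b z w, mt e o u ζ - mt e o q ζ ≤ k) :
    Φ z ζ ∈ box b 0 fun i => 20 * k / w i := by
  have hz : z ∈ box b z w := fun i => by simpa using (hw i).le
  have h1 : z + (2 : ℝ) • (q - z) ∈ box b z w := fun i => by
    have := hq i
    rw [add_sub_cancel_left, real_inner_smul_right, abs_mul, abs_two]
    linarith
  have h2 := h.three F hL le_rfl hQ hQs (hB hz) (hB h1) hζ (t := 1 / 2) (by norm_num)
    (by norm_num)
  have h3 : z + (1 / 2 : ℝ) • (z + (2 : ℝ) • (q - z) - z) = q := by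
    rw [add_sub_cancel_left, smul_smul]
    norm_num
  rw [h3] at h2
  have h4 := max_le hk.le (hP _ h1)
  have key : ∀ i (σ : ℝ), |σ| = w i → σ * inner ℝ (b i) (Φ z ζ) ≤ 20 * k := by
    intro i σ hσ
    have a1 := U_axis (b := b) z hw i hσ
    have a2 := h.slope_le F hL le_rfl hQ hQs (hB hz) (hB a1) hζ
    have a3 : max 0 (mt e o (z + σ • b i) ζ - mt e o z ζ) ≤ 5 * k :=
      max_le (by linarith) (by linarith [hP _ a1])
    rw [add_sub_cancel_left, real_inner_smul_right, real_inner_comm] at a2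
    linarith
  intro i
  have a1 := key i (w i) (abs_of_pos (hw i))
  have a2 := key i (-w i) (by rw [abs_neg, abs_of_pos (hw i)])
  rw [sub_zero, le_div_iff₀ (hw i), ← abs_of_pos (hw i), ← abs_mul]
  exact abs_le.2 ⟨by linarith, by linarith⟩

lemma U_far (F : Facts e) (hL : LoeperMax e) {S : Set M} {x y : M} {k : ℝ} (hk : 0 < k)
    (hr : 0 < r) (hy : ∀ u ∈ S, cost u o - cost u y - (cost x o - cost x y) ≤ k)
    (hS : ∀ ζ : TangentSpace 𝓘(ℝ, E) o, ‖ζ‖ = r / 2 →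
      ¬ ∀ u ∈ S, cost u o - cost u (e o ζ) - (cost x o - cost x (e o ζ)) ≤ k) :
    ∃ ζ : TangentSpace 𝓘(ℝ, E) o, ‖ζ‖ ≤ r / 2 ∧ e o ζ = y := by
  obtain ⟨ζ, h1, h2⟩ := F.hopfRinow o y
  refine ⟨ζ, ?_, h1⟩
  by_contra hlt
  rw [not_le, ← h2] at hlt
  obtain ⟨p₀, hp₀, d₀⟩ := F.hopfRinow x o
  obtain ⟨p₁, hp₁, d₁⟩ := F.hopfRinow x y
  have hX := (contMDiff_exp_fiber F.isExp x).continuous
  have hc : Continuous fun t : ℝ => dist o (e x ((1 - t) • p₀ + t • p₁)) :=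
    continuous_const.dist (hX.comp (by fun_prop))
  have i0 : dist o (e x ((1 - (0 : ℝ)) • p₀ + (0 : ℝ) • p₁)) ≤ r / 2 := by
    rw [sub_zero, one_smul, zero_smul, add_zero, hp₀, dist_self]
    linarith
  have i1 : r / 2 ≤ dist o (e x ((1 - (1 : ℝ)) • p₀ + (1 : ℝ) • p₁)) := by
    rw [sub_self, one_smul, zero_smul, zero_add, hp₁]
    exact hlt.le
  obtain ⟨t, ht, h3⟩ := intermediate_value_Icc zero_le_one hc.continuousOn
    (show r / 2 ∈ Icc _ _ from ⟨i0, i1⟩)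
  obtain ⟨ξ, h4, h5⟩ := F.hopfRinow o (e x ((1 - t) • p₀ + t • p₁))
  refine hS ξ (h5.symm.trans h3) fun u hu => ?_
  have h6 := (hL x p₀ p₁ t (by rw [hp₀, d₀]) (by rw [hp₁, d₁]) ht.1 ht.2).2 u
  rw [hp₀, hp₁, ← h4] at h6
  have h7 := hy u hu
  rcases le_max_iff.1 h6 with h8 | h8 <;> linarith

end Umix

variable [MeasurableSpace M] [BorelSpace M]

theorem upper (F : Facts e) (hW : WeakMTW e) {n : ℕ} (hn : finrank ℝ E = n) {φ : M → ℝ}
    (hφ : CConvex φ) {κ : ℝ≥0∞} (hκ : κ ≠ ⊤)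
    (H : ∀ A : Set M, IsClosed A → μHE[n] A ≤ κ * μHE[n] {y | ∃ x ∈ A, y ∈ cSubdiff φ x})
    {o : M} {m r₁ : ℝ} (hm : ∀ z, m ≤ φ z + cost z o) {c : TangentSpace 𝓘(ℝ, E) o}
    (hr₁ : 0 < r₁) (hB : closedBall c r₁ ⊆ injDomain e o) :
    ∃ C > 0, ∃ A > 0, ∀ k > 0, ∀ (b : OrthonormalBasis (Fin n) ℝ (TangentSpace 𝓘(ℝ, E) o))
      (z : TangentSpace 𝓘(ℝ, E) o) (w : Fin n → ℝ), (∀ i, A * k ≤ w i) →
      box b z w ⊆ sec e φ o (m + k) ∩ closedBall c r₁ → (∏ i, w i) ^ 2 ≤ C * k ^ n := by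
  have hL : LoeperMax e := ((Reg.tfae F).out 0 1).1 hW
  let _ : MeasurableSpace (TangentSpace 𝓘(ℝ, E) o) := borel _
  have : BorelSpace (TangentSpace 𝓘(ℝ, E) o) := ⟨rfl⟩
  obtain ⟨r, Φ, h⟩ := exists_mix F o (isCompact_closedBall c r₁) hB (δ := 1 / 2) (by norm_num)
  have hr := h.pos
  have hQ := convex_closedBall c r₁
  have hQs := hB.trans (injDomain_subset_segMin F.isExp o)
  have hX := (contMDiff_exp_fiber F.isExp o).continuous
  obtain ⟨c₀, hc₀, C₀, hC₀, hv⟩ := vol_box (V := TangentSpace 𝓘(ℝ, E) o) (n := n) hn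
  obtain ⟨K, hK, hlip⟩ := exp_lip F o (r / 2)
  have hD : 0 ≤ diam (univ : Set M) := diam_nonneg
  set L := 8 * diam (univ : Set M) / r with hLd
  have hL0 : 0 ≤ L := by positivity
  have hκ0 : 0 ≤ κ.toReal := ENNReal.toReal_nonneg
  set B := L ^ n * (κ.toReal * (K ^ n * (2 ^ n * C₀))) with hBd
  have hB0 : 0 ≤ B := by positivity
  refine ⟨2 ^ n * 20 ^ n * B / c₀ + 1, by positivity, 100 * (n + 1) / r, by positivity,
    fun k hk b z w hw hbox => ?_⟩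
  have hk' : 0 < k := hk
  have hA : 0 < 100 * ((n : ℝ) + 1) / r * k := by positivity
  have hw0 : ∀ i, 0 < w i := fun i => hA.trans_le (hw i)
  have hbQ : box b z w ⊆ closedBall c r₁ := hbox.trans inter_subset_right
  have hz : z ∈ closedBall c r₁ := hbQ fun i => by simpa using (hw0 i).le
  have hhalf : box b z (fun i => w i / 2) ⊆ closedBall c r₁ := fun u hu =>
    hbQ fun i => (hu i).trans (half_le_self (hw0 i).le)
  have hcomp : IsCompact (box b z fun i => w i / 2) :=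
    (isCompact_closedBall c r₁).of_isClosed_subset (U_closed _ _) hhalf
  set Z := {ζ | ‖ζ‖ ≤ r / 2 ∧ Φ z ζ ∈ box b 0 fun i => 20 * k / w i} with hZ
  have hsub : {y | ∃ x ∈ e o '' box b z fun i => w i / 2, y ∈ cSubdiff φ x} ⊆ e o '' Z := by
    rintro y ⟨x, ⟨q, hq, rfl⟩, hy⟩
    have hP : ∀ u ∈ e o '' box b z w,
        cost u o - cost u y - (cost (e o q) o - cost (e o q) y) ≤ k := by
      rintro u ⟨u, hu, rfl⟩
      have a1 := hy (e o u)
      have a2 := (hbox hu).1.2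
      have a3 := hm (e o q)
      rw [cost_comm] at a2
      linarith
    obtain ⟨ζ, h1, rfl⟩ := U_far F hL hk' hr hP fun ζ hζ hP' => by
      have a1 := U_near F hL h hQ hQs hk' hw0 hbQ hq hζ.le fun u hu => hP' _ ⟨u, hu, rfl⟩
      have a2 := U_norm (t := r / (5 * (n + 1))) a1 fun i => by
        have a3 := hw i
        rw [div_mul_eq_mul_div, div_le_iff₀ hr] at a3
        rw [div_le_div_iff₀ (hw0 i) (by positivity)]
        linarith
      have a3 : (n : ℝ) * (r / (5 * (n + 1))) ≤ r / 5 := by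
        rw [← mul_div_assoc, div_le_div_iff₀ (by positivity) (by norm_num)]
        nlinarith
      have a4 := h.norm_le hz (ζ := ζ) (by linarith)
      have a5 := norm_sub_norm_le ζ (Φ z ζ)
      rw [norm_sub_rev] at a5
      linarith
    exact ⟨ζ, ⟨h1, U_near F hL h hQ hQs hk' hw0 hbQ hq h1 fun u hu => hP _ ⟨u, hu, rfl⟩⟩, rfl⟩
  have v1 := (hv b z (fun i => w i / 2) fun i => (half_pos (hw0 i)).le).1
  have v2 := vol_colip n hL0 (f := e o) (S := box b z fun i => w i / 2) fun a ha b hb =>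
    U_colip F h hQ (hhalf ha) (hhalf hb)
  have v3 := H _ (hcomp.image hX).isClosed
  have v4 := vol_lip n hK (f := e o) (S := Z) fun a ha b hb => by
    rw [dist_eq_norm a]
    exact hlip a b ha.1 hb.1
  have v5 := vol_colip n zero_le_two (f := Φ z) (S := Z) fun a ha b hb => by
    have a1 := h.approx z hz a b (by linarith [ha.1]) (by linarith [hb.1])
    have a2 := norm_sub_norm_le (a - b) (Φ z a - Φ z b)
    rw [norm_sub_rev (a - b)] at a2
    rw [dist_eq_norm, dist_eq_norm]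
    linarith
  have v6 := (hv b 0 (fun i => 20 * k / w i) fun i => (div_pos (by linarith) (hw0 i)).le).2
  have v7 : μHE[n] (Φ z '' Z) ≤ μHE[n] (box b 0 fun i => 20 * k / w i) :=
    measure_mono (image_subset_iff.2 fun ζ hζ => hζ.2)
  have hp : 0 < ∏ i, w i := Finset.prod_pos fun i _ => hw0 i
  have e1 : ∏ i, w i / 2 = (∏ i, w i) / 2 ^ n := by
    rw [Finset.prod_div_distrib]
    simp
  have e2 : ∏ i, 20 * k / w i = 20 ^ n * k ^ n / ∏ i, w i := by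
    rw [Finset.prod_div_distrib]
    simp [mul_pow]
  rw [e1] at v1
  rw [e2] at v6
  have v8 : ENNReal.ofReal (c₀ * ((∏ i, w i) / 2 ^ n)) ≤
      ENNReal.ofReal (L ^ n) * (ENNReal.ofReal κ.toReal * (ENNReal.ofReal (K ^ n) *
        (ENNReal.ofReal (2 ^ n) * ENNReal.ofReal (C₀ * (20 ^ n * k ^ n / ∏ i, w i))))) := by
    rw [ENNReal.ofReal_toReal hκ]
    refine v1.trans (v2.trans (mul_le_mul_right (v3.trans (mul_le_mul_right
      ((measure_mono hsub).trans (v4.trans (mul_le_mul_right (v5.trans (mul_le_mul_right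
        (v7.trans v6) _)) _))) _)) _))
  rw [← ENNReal.ofReal_mul (by positivity), ← ENNReal.ofReal_mul (by positivity),
    ← ENNReal.ofReal_mul hκ0, ← ENNReal.ofReal_mul (by positivity),
    ENNReal.ofReal_le_ofReal_iff (by positivity)] at v8
  have v9 : (∏ i, w i) ^ 2 ≤ 2 ^ n * 20 ^ n * B / c₀ * k ^ n := by
    have e3 : L ^ n * (κ.toReal * (K ^ n * (2 ^ n * (C₀ * (20 ^ n * k ^ n / ∏ i, w i))))) =
        B * (20 ^ n * k ^ n) / ∏ i, w i := by
      rw [hBd]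
      ring
    rw [e3, le_div_iff₀ hp, ← mul_div_assoc, div_mul_eq_mul_div, div_le_iff₀ (by positivity)] at v8
    rw [div_mul_eq_mul_div, le_div_iff₀ hc₀]
    linarith
  have : 0 < k ^ n := by positivity
  linarith

end Vale.Agent.N234N

end

section
/-!
# P234: volume of a set of foci whose trace on a tangent space is convex
-/

set_option maxSynthPendingDepth 3
set_option linter.unusedSectionVars false

open Bundle Manifold Set Filter MeasureTheory Module Metric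
open scoped ContDiff Manifold Topology ENNReal

namespace Vale.Agent.N234N

open Vale.Agent.P234 Vale.Agent.N234

lemma dual_bound {V W : Type*} [NormedAddCommGroup V] [InnerProductSpace ℝ V]
    [FiniteDimensional ℝ V] [NormedAddCommGroup W] [InnerProductSpace ℝ W] [FiniteDimensional ℝ W]
    (L : V →L[ℝ] W) (hL : Function.Surjective L) :
    ∃ C > 0, ∀ (a : W) (u : V), (∀ v, inner ℝ u v = inner ℝ a (L v)) → ‖a‖ ≤ C * ‖u‖ := by
  have : CompleteSpace V := FiniteDimensional.complete ℝ V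
  have : CompleteSpace W := FiniteDimensional.complete ℝ W
  obtain ⟨C, hC, h⟩ := L.exists_preimage_norm_le hL
  refine ⟨C, hC, fun a u hu => ?_⟩
  obtain ⟨v, hv, hn⟩ := h a
  have h1 := hu v
  rw [hv, real_inner_self_eq_norm_mul_norm] at h1
  have h2 : ‖a‖ * ‖a‖ ≤ (C * ‖u‖) * ‖a‖ := by
    rw [← h1]
    refine (real_inner_le_norm u v).trans ?_
    calc ‖u‖ * ‖v‖ ≤ ‖u‖ * (C * ‖a‖) := by gcongr
      _ = _ := by ring
  rcases (norm_nonneg a).eq_or_lt with h0 | h0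
  · rw [← h0]
    positivity
  · exact le_of_mul_le_mul_right h2 h0

lemma simplex_mem {W : Type*} [NormedAddCommGroup W] [NormedSpace ℝ W] {K : Set W}
    (hK : Convex ℝ K) {n : ℕ} {p₀ : W} {p : Fin n → W} (h₀ : p₀ ∈ K) (hp : ∀ i, p i ∈ K)
    {B : ℝ} (hB0 : 0 ≤ B) (hB : ∀ i, ‖p i - p₀‖ ≤ B) {t : Fin n → ℝ} (ht : ∀ i, 0 ≤ t i)
    (hs : ∑ i, t i ≤ 1) :
    p₀ + ∑ i, t i • (p i - p₀) ∈ K ∧ ‖∑ i, t i • (p i - p₀)‖ ≤ B := by
  constructor
  · have h1 := hK.sum_mem (t := Finset.univ) (w := Fin.cons (α := fun _ => ℝ) (1 - ∑ i, t i) t)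
      (z := Fin.cons (α := fun _ => W) p₀ p)
      (fun i _ => Fin.cases (by simpa using hs) (fun j => by simpa using ht j) i)
      (by simp [Fin.sum_univ_succ])
      (fun i _ => Fin.cases (by simpa using h₀) (fun j => by simpa using hp j) i)
    convert h1 using 1
    simp only [Fin.sum_univ_succ, Fin.cons_zero, Fin.cons_succ, smul_sub, Finset.sum_sub_distrib,
      ← Finset.sum_smul, sub_smul, one_smul]
    abel
  · refine (norm_sum_le _ _).trans ?_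
    calc ∑ i, ‖t i • (p i - p₀)‖ ≤ ∑ i, t i * B := Finset.sum_le_sum fun i _ => by
          rw [norm_smul, Real.norm_of_nonneg (ht i)]
          exact mul_le_mul_of_nonneg_left (hB i) (ht i)
      _ = (∑ i, t i) * B := (Finset.sum_mul _ _ _).symm
      _ ≤ B := mul_le_of_le_one_left hB0 hs

variable {E : Type*} [NormedAddCommGroup E] [NormedSpace ℝ E] [FiniteDimensional ℝ E]
  {M : Type*} [MetricSpace M] [ChartedSpace E M]
  [RiemannianBundle (fun x : M => TangentSpace 𝓘(ℝ, E) x)]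
  [IsManifold 𝓘(ℝ, E) ∞ M]
  [IsContMDiffRiemannianBundle 𝓘(ℝ, E) ∞ E (fun x : M => TangentSpace 𝓘(ℝ, E) x)]
  [CompactSpace M]
  {e : ∀ x : M, TangentSpace 𝓘(ℝ, E) x → M}

lemma Mix.simplex_sub (F : Facts e) {o : M} {Q : Set (TangentSpace 𝓘(ℝ, E) o)} {δ r : ℝ}
    {Φ : TangentSpace 𝓘(ℝ, E) o → TangentSpace 𝓘(ℝ, E) o → TangentSpace 𝓘(ℝ, E) o}
    (h : Mix e o Q δ r Φ) (hδ : δ ≤ 1 / 2) {q : TangentSpace 𝓘(ℝ, E) o} (hq : q ∈ Q)
    (hqI : q ∈ injDomain e o) {ρ : ℝ} (hρ : 0 < ρ) :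
    ∃ ε > 0, ∀ {n : ℕ} (ζ : Fin n → TangentSpace 𝓘(ℝ, E) o) (D : Set M), (∀ i, ‖ζ i‖ ≤ ε) →
      Convex ℝ {p | p ∈ segMin e (e o q) ∧ e (e o q) p ∈ D} → o ∈ D → (∀ i, e o (ζ i) ∈ D) →
      ∀ t : Fin n → ℝ, (∀ i, 0 ≤ t i) → ∑ i, t i ≤ 1 →
        ∃ ξ, (‖ξ‖ < min r ρ ∧ e o ξ ∈ D) ∧ Φ q ξ = ∑ i, t i • Φ q (ζ i) := by
  obtain ⟨p₀, hp₀, hd₀⟩ := F.hopfRinow (e o q) o
  have hs₀ : p₀ ∈ segMin e (e o q) := by
    change dist _ (e _ p₀) = _
    rw [hp₀]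
    exact hd₀
  obtain ⟨C, hC, hdual⟩ := dual_bound (V := TangentSpace 𝓘(ℝ, E) o)
    (W := TangentSpace 𝓘(ℝ, E) (e o q))
    (mfderiv 𝓘(ℝ, TangentSpace 𝓘(ℝ, E) o) 𝓘(ℝ, E) (e o) q) (mfderiv_surj F hqI)
  have hr := h.pos
  obtain ⟨η, hη, hcont⟩ := Metric.continuousAt_iff.1
    ((contMDiff_exp_fiber F.isExp (e o q)).continuous.continuousAt (x := p₀)) _ (lt_min hr hρ)
  refine ⟨min (r / 2) (η / (4 * C)), by positivity, fun {n} ζ D hζ hD ho hζD t ht hs => ?_⟩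
  choose p hp hd using fun i => F.hopfRinow (e o q) (e o (ζ i))
  have hps : ∀ i, p i ∈ segMin e (e o q) := fun i => by
    change dist _ (e _ (p i)) = _
    rw [hp i]
    exact hd i
  have hζr : ∀ i, ‖ζ i‖ < r := fun i => by linarith [(hζ i).trans (min_le_left _ _)]
  have hv := fun i => h.vec F hq (hζr i) hs₀ hp₀ (hps i) (hp i)
  have hB : ∀ i, ‖p i - p₀‖ ≤ η / 2 := fun i => by
    have h1 := hdual _ _ (hv i)
    have h2 := h.norm_le hq (hζr i)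
    have h3 := norm_le_norm_add_norm_sub' (Φ q (ζ i)) (ζ i)
    have h4 : δ * ‖ζ i‖ ≤ 1 / 2 * ‖ζ i‖ := by gcongr
    have h5 := (le_div_iff₀ (by positivity)).1 ((hζ i).trans (min_le_right _ _))
    have h6 : C * ‖Φ q (ζ i)‖ ≤ C * (2 * ‖ζ i‖) := by
      gcongr
      linarith [norm_nonneg (ζ i)]
    linarith
  obtain ⟨⟨hm, hmD⟩, hn⟩ := simplex_mem hD (p₀ := p₀) (p := p) ⟨hs₀, by rwa [hp₀]⟩
    (fun i => ⟨hps i, by rw [hp i]; exact hζD i⟩) (half_pos hη).le hB ht hs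
  obtain ⟨ξ, hξ, hξd⟩ := F.hopfRinow o (e (e o q) (p₀ + ∑ i, t i • (p i - p₀)))
  have hξn : ‖ξ‖ < min r ρ := by
    have h1 := hcont (x := p₀ + ∑ i, t i • (p i - p₀)) (by
      rw [dist_eq_norm, add_sub_cancel_left]
      linarith)
    rwa [hp₀, dist_comm, hξd] at h1
  refine ⟨ξ, ⟨hξn, by rwa [hξ]⟩, ext_inner_right ℝ fun v => ?_⟩
  rw [h.vec F hq (hξn.trans_le (min_le_left _ _)) hs₀ hp₀ hm hξ.symm v, add_sub_cancel_left,
    sum_inner, sum_inner]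
  exact Finset.sum_congr rfl fun i _ => by rw [real_inner_smul_left, real_inner_smul_left, hv i v]

variable [MeasurableSpace M] [BorelSpace M]

theorem simplex (F : Facts e) {n : ℕ} (hn : finrank ℝ E = n) (o : M) :
    ∃ c > 0, ∀ (Q : Set (TangentSpace 𝓘(ℝ, E) o)) (δ r : ℝ)
      (Φ : TangentSpace 𝓘(ℝ, E) o → TangentSpace 𝓘(ℝ, E) o → TangentSpace 𝓘(ℝ, E) o),
      Mix e o Q δ r Φ → δ ≤ 1 / 2 → ∀ q ∈ Q, q ∈ injDomain e o → ∃ ε > 0,
      ∀ (b : OrthonormalBasis (Fin n) ℝ (TangentSpace 𝓘(ℝ, E) o)) (σ : Fin n → ℝ)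
        (ζ : Fin n → TangentSpace 𝓘(ℝ, E) o) (D : Set M), (∀ i, 0 < σ i) → (∀ i, ‖ζ i‖ ≤ ε) →
        (∀ i, ‖Φ q (ζ i) - σ i • b i‖ ≤ σ i / (2 * n)) →
        Convex ℝ {p | p ∈ segMin e (e o q) ∧ e (e o q) p ∈ D} → o ∈ D → (∀ i, e o (ζ i) ∈ D) →
        ENNReal.ofReal (c * ∏ i, σ i) ≤ μHE[n] D := by
  let _ : MeasurableSpace (TangentSpace 𝓘(ℝ, E) o) := borel _
  have : BorelSpace (TangentSpace 𝓘(ℝ, E) o) := ⟨rfl⟩
  obtain ⟨c, hc, hpar⟩ := vol_par (V := TangentSpace 𝓘(ℝ, E) o) hn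
  obtain ⟨ρ, hρ, hch⟩ := chart F o
  refine ⟨c / 3 ^ n, by positivity, fun Q δ r Φ h hδ q hq hqI => ?_⟩
  obtain ⟨ε, hε, hsub⟩ := h.simplex_sub F hδ hq hqI hρ
  refine ⟨ε, hε, fun b σ ζ D hσ hζ hu hD ho hζD => ?_⟩
  set Z : Set (TangentSpace 𝓘(ℝ, E) o) := {ξ | ‖ξ‖ < min r ρ ∧ e o ξ ∈ D} with hZ
  have h1 : ENNReal.ofReal (c * ∏ i, σ i) ≤ μHE[n] (Φ q '' Z) := by
    refine (hpar b σ (fun i => Φ q (ζ i)) hσ hu).trans (measure_mono ?_)
    rintro _ ⟨t, ht, hs, rfl⟩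
    exact hsub ζ D hζ hD ho hζD t ht hs
  have h2 : μHE[n] (Φ q '' Z) ≤ ENNReal.ofReal ((3 / 2) ^ n) * μHE[n] Z := by
    refine vol_lip n (by norm_num) fun a ha a' ha' => ?_
    have h3 := h.approx q hq a a' (ha.1.trans_le (min_le_left _ _))
      (ha'.1.trans_le (min_le_left _ _))
    have h4 := norm_le_norm_add_norm_sub' (Φ q a - Φ q a') (a - a')
    have h5 : δ * ‖a - a'‖ ≤ 1 / 2 * ‖a - a'‖ := by gcongr
    rw [dist_eq_norm, dist_eq_norm]
    linarith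
  have h3 : μHE[n] Z ≤ ENNReal.ofReal (2 ^ n) * μHE[n] (e o '' Z) := by
    refine vol_colip n (by norm_num) fun a ha a' ha' => ?_
    rw [dist_eq_norm]
    exact (hch a a' (ha.1.trans_le (min_le_right _ _)) (ha'.1.trans_le (min_le_right _ _))).1
  have h4 : μHE[n] (e o '' Z) ≤ μHE[n] D := measure_mono (by
    rintro _ ⟨a, ha, rfl⟩
    exact ha.2)
  have h5 : ENNReal.ofReal (3 ^ n) * ENNReal.ofReal (c / 3 ^ n * ∏ i, σ i) ≤
      ENNReal.ofReal (3 ^ n) * μHE[n] D := by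
    rw [← ENNReal.ofReal_mul (by positivity),
      show 3 ^ n * (c / 3 ^ n * ∏ i, σ i) = c * ∏ i, σ i by field_simp,
      show (3 : ℝ) ^ n = (3 / 2) ^ n * 2 ^ n by rw [← mul_pow]; norm_num,
      ENNReal.ofReal_mul (p := (3 / 2) ^ n) (by positivity), mul_assoc]
    refine h1.trans (h2.trans ?_)
    gcongr
    refine h3.trans ?_
    gcongr
  exact (ENNReal.mul_le_mul_iff_right (ENNReal.ofReal_pos.2 (by positivity)).ne'
    ENNReal.ofReal_ne_top).1 h5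

end Vale.Agent.N234N

end
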