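import Mathlib.Geometry.Euclidean.Volume.Measure
import Mathlib.Analysis.InnerProductSpace.PiL2
import Mathlib.Analysis.Convex.Combination
import Mathlib.Analysis.InnerProductSpace.Projection.FiniteDimensional
import Mathlib.MeasureTheory.Measure.Haar.InnerProductSpace
import Vale.Agent.N234.Dual

/-!
# P234: duality, frames of convex bodies, volumes
-/

section
namespace Vale.Agent.N234N

/-- The box with centre `c`, axes `b` and half widths `w`. -/
def box {V : Type*} [NormedAddCommGroup V] [InnerProductSpace ℝ V] {n : ℕ}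
    (b : OrthonormalBasis (Fin n) ℝ V) (c : V) (w : Fin n → ℝ) : Set V :=
  {u | ∀ i, |inner ℝ (b i) (u - c)| ≤ w i}

end Vale.Agent.N234N

end

section
/-! Block F: a compact convex set lies between two homothetic boxes with a prescribed axis. -/

open Set Module Metric

namespace Vale.Agent.N234N

variable {V : Type*} [NormedAddCommGroup V] [InnerProductSpace ℝ V]

/-- `S` contains a segment of direction `b` and half length `m`. -/
def FSeg (S : Set V) (b : V) (m : ℝ) : Prop := ∃ z, ∀ a : ℝ, |a| ≤ m → z + a • b ∈ S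

theorem FSeg.mono {S : Set V} {b : V} {m m' : ℝ} (h : FSeg S b m) (hm : m' ≤ m) : FSeg S b m' :=
  h.imp fun _ hz a ha => hz a (ha.trans hm)

theorem F_seg {S : Set V} (hS : Convex ℝ S) {A B b : V} {m : ℝ} (hA : A ∈ S) (hB : B ∈ S)
    (h : A = B + m • b) (hm : 0 ≤ m) : FSeg S b (m / 2) := by
  refine ⟨B + (m / 2) • b, fun a ha => ?_⟩
  obtain ⟨a1, a2⟩ := abs_le.1 ha
  rcases hm.eq_or_lt with h0 | h0
  · have : a = 0 := by subst h0; linarith
    subst h0
    simpa [this] using hB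
  · have h1 : 0 ≤ (m / 2 + a) / m := div_nonneg (by linarith) hm
    have h2 : (m / 2 + a) / m ≤ 1 := (div_le_one h0).2 (by linarith)
    have := hS.add_smul_sub_mem hB hA ⟨h1, h2⟩
    rwa [h, add_sub_cancel_left, smul_smul, div_mul_cancel₀ _ h0.ne', add_smul, ← add_assoc]
      at this

theorem F_avg {S : Set V} (hS : Convex ℝ S) {k : ℕ} {x : Fin (k + 1) → V} (hx : ∀ i, x i ∈ S) :
    ((k + 1 : ℝ))⁻¹ • ∑ i, x i ∈ S := by
  have h0 : (0 : ℝ) < k + 1 := by positivity
  rw [Finset.smul_sum]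
  refine hS.sum_mem (fun _ _ => by positivity) ?_ fun i _ => hx i
  simp [h0.ne']

theorem F_unit [FiniteDimensional ℝ V] {k : ℕ} (hk : k < finrank ℝ V) (b : Fin k → V) :
    ∃ e : V, ‖e‖ = 1 ∧ ∀ i, inner ℝ e (b i) = 0 := by
  have h1 : (Submodule.span ℝ (range b))ᗮ ≠ ⊥ := by
    intro h
    have h2 := finrank_range_le_card (R := ℝ) b
    rw [Set.finrank, Submodule.orthogonal_eq_bot_iff.1 h, finrank_top, Fintype.card_fin] at h2
    omega
  obtain ⟨x, hx, hx0⟩ := Submodule.exists_mem_ne_zero_of_ne_bot h1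
  refine ⟨‖x‖⁻¹ • x, norm_smul_inv_norm hx0, fun i => ?_⟩
  rw [real_inner_smul_left, Submodule.inner_left_of_mem_orthogonal
    (Submodule.subset_span (mem_range_self i)) hx, mul_zero]

theorem F_step [FiniteDimensional ℝ V] {k : ℕ} (hk : k < finrank ℝ V) {b : Fin k → V}
    (hb : Orthonormal ℝ b) {S : Set V} (hS : IsCompact S) {q : V} (hq : q ∈ S) :
    ∃ (e : V) (W : ℝ), ∃ s ∈ S, ‖e‖ = 1 ∧ (∀ i, inner ℝ e (b i) = 0) ∧ 0 ≤ W ∧
      (∀ u ∈ S, |inner ℝ e (u - q)| ≤ W) ∧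
      W • e = s - q - ∑ i, inner ℝ (b i) (s - q) • b i := by
  let P : V → V := fun u => u - q - ∑ i, inner ℝ (b i) (u - q) • b i
  have hP : Continuous fun u => ‖P u‖ := by fun_prop
  obtain ⟨s, hs, hm⟩ := hS.exists_isMaxOn ⟨q, hq⟩ hP.continuousOn
  have key : ∃ e : V, ‖e‖ = 1 ∧ (∀ i, inner ℝ e (b i) = 0) ∧ ‖P s‖ • e = P s := by
    by_cases h0 : P s = 0
    · obtain ⟨e, e1, e2⟩ := F_unit hk b
      exact ⟨e, e1, e2, by rw [h0, norm_zero, zero_smul]⟩
    · refine ⟨‖P s‖⁻¹ • P s, norm_smul_inv_norm h0, fun i => ?_, ?_⟩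
      · rw [real_inner_smul_left, real_inner_comm]
        simp only [P]
        rw [inner_sub_right, hb.inner_right_fintype, sub_self, mul_zero]
      · rw [smul_smul, mul_inv_cancel₀ (norm_ne_zero_iff.2 h0), one_smul]
  obtain ⟨e, e1, e2, e3⟩ := key
  refine ⟨e, ‖P s‖, s, hs, e1, e2, norm_nonneg _, fun u hu => ?_, e3⟩
  have : inner ℝ e (u - q) = inner ℝ e (P u) := by
    simp only [P]
    rw [inner_sub_right e (u - q), inner_sum]
    simp only [real_inner_smul_right, e2, mul_zero, Finset.sum_const_zero, sub_zero]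
  rw [this]
  refine (abs_real_inner_le_norm _ _).trans ?_
  rw [e1, one_mul]
  exact hm hu

theorem F_ind [FiniteDimensional ℝ V] {ℓ R : ℝ} (hℓ : 0 < ℓ) (hR : 0 < R) (k : ℕ)
    (hk : k < finrank ℝ V) :
    ∃ c > 0, c ≤ 1 ∧ ∀ (S : Set V) (q v : V), IsCompact S → Convex ℝ S → q ∈ S → ‖v‖ = 1 →
      q + ℓ • v ∈ S → S ⊆ closedBall q R →
      ∃ (b : Fin (k + 1) → V) (w : Fin (k + 1) → ℝ) (i₀ : Fin (k + 1)), Orthonormal ℝ b ∧
        b i₀ = v ∧ w i₀ = R ∧ (∀ i, ∀ u ∈ S, |inner ℝ (b i) (u - q)| ≤ w i) ∧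
        ∀ i, FSeg S (b i) (c * w i) := by
  induction k with
  | zero =>
    refine ⟨min 1 (ℓ / 2 / R), by positivity, min_le_left _ _,
      fun S q v _ hS hq hv hl hB => ⟨fun _ => v, fun _ => R, 0, ?_, rfl, rfl, ?_, ?_⟩⟩
    · exact ⟨fun _ => hv, fun i j h => absurd (Subsingleton.elim (α := Fin 1) i j) h⟩
    · intro _ u hu
      refine (abs_real_inner_le_norm _ _).trans ?_
      rw [hv, one_mul]
      exact mem_closedBall_iff_norm.1 (hB hu)
    · intro _
      refine (F_seg hS hl hq rfl hℓ.le).mono ?_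
      exact (le_div_iff₀ hR).1 (min_le_right _ _)
  | succ k ih =>
    obtain ⟨c, c0, c1, H⟩ := ih (by omega)
    have hN : (1 : ℝ) ≤ k + 1 := by linarith [Nat.cast_nonneg (α := ℝ) k]
    have hN0 : (0 : ℝ) < k + 1 := by positivity
    have hc : c / (k + 1) ≤ c := div_le_self c0.le hN
    have hc0 : 0 < c / (k + 1) := by positivity
    refine ⟨c / (k + 1) / 4, by positivity, by linarith, fun S q v hK hS hq hv hl hB => ?_⟩
    obtain ⟨b, w, i₀, hb, b0, w0, out, inn⟩ := H S q v hK hS hq hv hl hB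
    obtain ⟨e, W, s, hs, e1, e2, W0, eo, eW⟩ := F_step hk hb hK hq
    refine ⟨Matrix.vecCons e b, Matrix.vecCons W w, i₀.succ,
      orthonormal_vecCons_iff.2 ⟨e1, e2, hb⟩, b0, w0, fun i => ?_, fun i => ?_⟩
    · refine Fin.cases ?_ (fun j => ?_) i
      · exact eo
      · exact out j
    · refine Fin.cases ?_ (fun j => ?_) i
      · choose z hz using inn
        have h1 := F_avg hS (x := fun i => z i + (-(c * inner ℝ (b i) (s - q))) • b i) fun i =>
          hz i _ (by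
            rw [abs_neg, abs_mul, abs_of_pos c0]
            exact mul_le_mul_of_nonneg_left (out i s hs) c0.le)
        have h2 := F_avg hS (x := fun i => z i + (0 : ℝ) • b i) fun i =>
          hz i _ (by
            rw [abs_zero]
            exact mul_nonneg c0.le ((abs_nonneg _).trans (out i s hs)))
        have h3 := hS.add_smul_sub_mem hq hs ⟨hc0.le, hc.trans c1⟩
        have hA := hS h3 h1 (a := 1 / 2) (b := 1 / 2) (by norm_num) (by norm_num) (by norm_num)
        have hB' := hS hq h2 (a := 1 / 2) (b := 1 / 2) (by norm_num) (by norm_num) (by norm_num)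
        refine (F_seg hS hA hB' (b := e) (m := c / (k + 1) / 2 * W) ?_ (by positivity)).mono ?_
        · rw [mul_smul, eW]
          simp only [zero_smul, add_zero, Finset.sum_add_distrib, neg_smul, mul_smul,
            Finset.sum_neg_distrib, ← Finset.smul_sum, div_eq_mul_inv]
          module
        · exact le_of_eq (by simp only [Matrix.cons_val_zero]; ring)
      · refine (inn j).mono ?_
        exact mul_le_mul_of_nonneg_right (by linarith) ((abs_nonneg _).trans (out j q hq))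

theorem exists_frame [FiniteDimensional ℝ V] {n : ℕ} (hn : finrank ℝ V = n) {ℓ R : ℝ}
    (hℓ : 0 < ℓ) (hR : 0 < R) :
    ∃ c > 0, ∀ (S : Set V) (q v : V), IsCompact S → Convex ℝ S → q ∈ S → ‖v‖ = 1 →
      q + ℓ • v ∈ S → S ⊆ closedBall q R →
      ∃ (b : OrthonormalBasis (Fin n) ℝ V) (w : Fin n → ℝ) (i₀ : Fin n) (z : V),
        b i₀ = v ∧ w i₀ = R ∧ S ⊆ box b q w ∧ box b z (fun i => c * w i) ⊆ S := by
  rcases n with _ | k
  · refine ⟨1, one_pos, fun S q v _ _ _ hv _ _ => ?_⟩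
    have := finrank_zero_iff_forall_zero.1 hn v
    rw [this, norm_zero] at hv
    exact absurd hv zero_ne_one
  obtain ⟨c, c0, -, H⟩ := F_ind hℓ hR k (V := V) (by omega)
  have hN0 : (0 : ℝ) < k + 1 := by positivity
  refine ⟨c / (k + 1), by positivity, fun S q v hK hS hq hv hl hB => ?_⟩
  obtain ⟨b, w, i₀, hb, b0, w0, out, inn⟩ := H S q v hK hS hq hv hl hB
  choose z hz using inn
  have hsp : ⊤ ≤ Submodule.span ℝ (range b) :=
    (hb.linearIndependent.span_eq_top_of_card_eq_finrank (by rw [hn, Fintype.card_fin])).ge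
  have hc : ∀ i, OrthonormalBasis.mk hb hsp i = b i := fun i =>
    congrFun (OrthonormalBasis.coe_mk hb hsp) i
  refine ⟨OrthonormalBasis.mk hb hsp, w, i₀, ((k + 1 : ℝ))⁻¹ • ∑ i, z i, (hc _).trans b0, w0,
    fun u hu i => by rw [hc]; exact out i u hu, fun u hu => ?_⟩
  have h0 := (OrthonormalBasis.mk hb hsp).sum_repr' (u - ((k + 1 : ℝ))⁻¹ • ∑ i, z i)
  simp only [box, mem_ofPred_eq, hc] at hu h0
  have h1 := F_avg hS (x := fun i => z i +
    ((k + 1 : ℝ) * inner ℝ (b i) (u - ((k + 1 : ℝ))⁻¹ • ∑ i, z i)) • b i) fun i => hz i _ (by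
      rw [abs_mul, abs_of_pos hN0]
      refine (mul_le_mul_of_nonneg_left (hu i) hN0.le).trans (le_of_eq ?_)
      field_simp)
  simp only [Finset.sum_add_distrib, mul_smul, ← Finset.smul_sum] at h1
  rwa [h0, smul_add, smul_smul, inv_mul_cancel₀ hN0.ne', one_smul, add_sub_cancel] at h1

end Vale.Agent.N234N

end

section
/-! Block W: volumes of Lipschitz images, boxes and simplices. -/

set_option linter.unusedSectionVars false

open Set Filter MeasureTheory Module Metric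
open scoped Topology ENNReal

namespace Vale.Agent.N234N

variable {V : Type*} [NormedAddCommGroup V] [InnerProductSpace ℝ V] [FiniteDimensional ℝ V]

theorem vol_lip {X Y : Type*} [MetricSpace X] [MeasurableSpace X] [BorelSpace X] [MetricSpace Y]
    [MeasurableSpace Y] [BorelSpace Y] (n : ℕ) {K : ℝ} (hK : 0 ≤ K) {f : X → Y} {S : Set X}
    (h : ∀ a ∈ S, ∀ b ∈ S, dist (f a) (f b) ≤ K * dist a b) :
    μHE[n] (f '' S) ≤ ENNReal.ofReal (K ^ n) * μHE[n] S := by
  have h0 : LipschitzOnWith K.toNNReal f S := LipschitzOnWith.of_dist_le_mul fun a ha b hb => by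
    rw [Real.coe_toNNReal K hK]; exact h a ha b hb
  have h1 := h0.hausdorffMeasure_image_le (d := (n : ℝ)) (by positivity)
  rw [ENNReal.rpow_natCast] at h1
  simp only [Measure.euclideanHausdorffMeasure_def, Measure.smul_apply, ENNReal.smul_def,
    smul_eq_mul]
  rw [mul_left_comm, ENNReal.ofReal_pow hK]
  gcongr
  exact h1

theorem vol_colip {X Y : Type*} [MetricSpace X] [MeasurableSpace X] [BorelSpace X] [MetricSpace Y]
    [MeasurableSpace Y] [BorelSpace Y] (n : ℕ) {K : ℝ} (hK : 0 ≤ K) {f : X → Y} {S : Set X}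
    (h : ∀ a ∈ S, ∀ b ∈ S, dist a b ≤ K * dist (f a) (f b)) :
    μHE[n] S ≤ ENNReal.ofReal (K ^ n) * μHE[n] (f '' S) := by
  rcases S.eq_empty_or_nonempty with rfl | ⟨x, -⟩
  · simp
  have : Nonempty X := ⟨x⟩
  have hinj : InjOn f S := fun u hu v hv huv => by
    have h1 := h u hu v hv
    rw [huv, dist_self, mul_zero] at h1
    exact dist_le_zero.1 h1
  have hgf : ∀ u ∈ S, Function.invFunOn f S (f u) = u := fun u hu => hinj.leftInvOn_invFunOn hu
  have himg : Function.invFunOn f S '' (f '' S) = S := by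
    rw [image_image]
    exact (image_congr hgf).trans (image_id' _)
  have h2 := vol_lip n hK (f := Function.invFunOn f S) (S := f '' S) (by
    rintro _ ⟨u, hu, rfl⟩ _ ⟨v, hv, rfl⟩
    rw [hgf u hu, hgf v hv]
    exact h u hu v hv)
  rwa [himg] at h2

variable [MeasurableSpace V] [BorelSpace V]

theorem W_box {n : ℕ} (hn : finrank ℝ V = n) (b : OrthonormalBasis (Fin n) ℝ V) (z : V)
    (w : Fin n → ℝ) (hw : ∀ i, 0 ≤ w i) :
    μHE[n] (box b z w) = ENNReal.ofReal (2 ^ n * ∏ i, w i) := by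
  subst hn
  have hg := (PiLp.volume_preserving_ofLp (Fin (finrank ℝ V))).comp b.measurePreserving_repr
  have e : box b z w = (WithLp.ofLp ∘ b.repr) ⁻¹'
      Icc (fun i => b.repr z i - w i) (fun i => b.repr z i + w i) := by
    ext u
    simp only [box, mem_ofPred_eq, mem_preimage, mem_Icc, Function.comp_apply, Pi.le_def,
      inner_sub_right, b.repr_apply_apply, abs_le, ← forall_and]
    refine forall_congr' fun i => ⟨fun h => ⟨?_, ?_⟩, fun h => ⟨?_, ?_⟩⟩ <;> linarith [h.1, h.2]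
  rw [InnerProductSpace.euclideanHausdorffMeasure_eq_volume, e,
    hg.measure_preimage measurableSet_Icc.nullMeasurableSet, Real.volume_Icc_pi,
    ← ENNReal.ofReal_prod_of_nonneg fun i _ => by linarith [hw i]]
  congr 1
  rw [Finset.prod_congr rfl fun i _ => show b.repr z i + w i - (b.repr z i - w i) = 2 * w i by ring,
    Finset.prod_mul_distrib]
  simp

theorem vol_box {n : ℕ} (hn : finrank ℝ V = n) :
    ∃ c > 0, ∃ C > 0, ∀ (b : OrthonormalBasis (Fin n) ℝ V) (z : V) (w : Fin n → ℝ),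
      (∀ i, 0 ≤ w i) → ENNReal.ofReal (c * ∏ i, w i) ≤ μHE[n] (box b z w) ∧
        μHE[n] (box b z w) ≤ ENNReal.ofReal (C * ∏ i, w i) :=
  ⟨2 ^ n, by positivity, 2 ^ n, by positivity, fun b z w hw =>
    ⟨(W_box hn b z w hw).ge, (W_box hn b z w hw).le⟩⟩

theorem vol_par {n : ℕ} (hn : finrank ℝ V = n) :
    ∃ c > 0, ∀ (b : OrthonormalBasis (Fin n) ℝ V) (σ : Fin n → ℝ) (u : Fin n → V),
      (∀ i, 0 < σ i) → (∀ i, ‖u i - σ i • b i‖ ≤ σ i / (2 * n)) →
      ENNReal.ofReal (c * ∏ i, σ i) ≤ μHE[n] {z | ∃ t : Fin n → ℝ, (∀ i, 0 ≤ t i) ∧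
        ∑ i, t i ≤ 1 ∧ z = ∑ i, t i • u i} := by
  obtain ⟨k, hk⟩ : ∃ k : ℝ, k = (2 * ((n : ℝ) + 1))⁻¹ := ⟨_, rfl⟩
  have hk0 : 0 < k := by rw [hk]; positivity
  refine ⟨k ^ n, by positivity, fun b σ u hσ hu => ?_⟩
  obtain ⟨L, hL⟩ : ∃ L : V → V, ∀ x, L x = ∑ i, (inner ℝ (b i) x / σ i) • u i := ⟨_, fun _ => rfl⟩
  have hsub : ∀ x y, L x - L y = L (x - y) := fun x y => by
    simp only [hL, ← Finset.sum_sub_distrib, ← sub_smul, inner_sub_right, sub_div]
  have hnear : ∀ x, ‖L x - x‖ ≤ ‖x‖ / 2 := fun x => by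
    have e : L x - x = ∑ i, (inner ℝ (b i) x / σ i) • (u i - σ i • b i) := by
      conv_lhs => rw [hL, ← b.sum_repr' x, ← Finset.sum_sub_distrib, b.sum_repr' x]
      refine Finset.sum_congr rfl fun i _ => ?_
      rw [smul_sub, smul_smul, div_mul_cancel₀ _ (hσ i).ne']
    have h1 : ∀ i, ‖(inner ℝ (b i) x / σ i) • (u i - σ i • b i)‖ ≤ ‖x‖ / (2 * n) := fun i => by
      have h2 : |inner ℝ (b i) x| ≤ ‖x‖ := by
        simpa [b.orthonormal.1 i] using abs_real_inner_le_norm (b i) x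
      have h3 := hσ i
      rw [norm_smul, Real.norm_eq_abs, abs_div, abs_of_pos h3]
      calc _ ≤ ‖x‖ / σ i * (σ i / (2 * n)) := by gcongr; exact hu i
        _ = _ := by field_simp
    rw [e]
    refine (norm_sum_le _ _).trans ((Finset.sum_le_sum fun i _ => h1 i).trans ?_)
    rw [Finset.sum_const, Finset.card_univ, Fintype.card_fin, nsmul_eq_mul]
    rcases Nat.eq_zero_or_pos n with rfl | h0
    · simp only [Nat.cast_zero, zero_mul]; positivity
    · have : (0 : ℝ) < n := by exact_mod_cast h0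
      exact le_of_eq (by field_simp)
  have h2 := vol_colip n (K := 2) (by norm_num) (f := L)
    (S := box b (∑ i, (k * σ i) • b i) fun i => k * σ i) fun x _ y _ => by
      rw [dist_eq_norm, dist_eq_norm, hsub]
      have h3 := hnear (x - y)
      have h4 := norm_sub_norm_le (x - y) (L (x - y))
      rw [norm_sub_rev (x - y)] at h4
      linarith
  rw [W_box hn _ _ _ fun i => (mul_pos hk0 (hσ i)).le, Finset.prod_mul_distrib, Finset.prod_const,
    Finset.card_univ, Fintype.card_fin, ENNReal.ofReal_mul (by positivity),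
    ENNReal.mul_le_mul_iff_right (by simp) ENNReal.ofReal_ne_top] at h2
  refine h2.trans (measure_mono ?_)
  rintro _ ⟨x, hx, rfl⟩
  have h5 : ∀ i, 0 ≤ inner ℝ (b i) x ∧ inner ℝ (b i) x ≤ 2 * k * σ i := fun i => by
    have h6 := hx i
    rw [inner_sub_right, b.orthonormal.inner_right_fintype, abs_le] at h6
    constructor <;> linarith [h6.1, h6.2]
  refine ⟨fun i => inner ℝ (b i) x / σ i, fun i => div_nonneg (h5 i).1 (hσ i).le, ?_, hL x⟩
  refine (Finset.sum_le_sum fun i _ => (div_le_iff₀ (hσ i)).2 (h5 i).2).trans ?_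
  rw [Finset.sum_const, Finset.card_univ, Fintype.card_fin, nsmul_eq_mul, hk]
  have : (0 : ℝ) < n + 1 := by positivity
  rw [show (n : ℝ) * (2 * (2 * ((n : ℝ) + 1))⁻¹) = n / (n + 1) by field_simp, div_le_one this]
  linarith

end Vale.Agent.N234N

end

section
/-! Block K: Kantorovich potentials with both spreading inequalities, and duality. -/

open Set Filter MeasureTheory
open scoped Topology ENNReal

namespace Vale.Agent.N234N

open Vale.Agent.P234 Vale.Agent.N234

section metric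

variable {M : Type*} [MetricSpace M]

/-- a function with supporting mountains at all points is `c`-convex -/
theorem K_cconvex {φ : M → ℝ} (h : ∀ x, (cSubdiff φ x).Nonempty) : CConvex φ := by
  refine ⟨{p | ∀ x, p.1 - cost x p.2 ≤ φ x}, fun x => ⟨?_, fun b hb => ?_⟩⟩
  · rintro _ ⟨p, hp, rfl⟩
    exact hp x
  · obtain ⟨y, hy⟩ := h x
    have h1 : φ x + cost x y - cost x y ≤ b := hb ⟨(φ x + cost x y, y), hy, rfl⟩
    linarith only [h1]

theorem K_le [Nonempty M] {φ : M → ℝ} (hφ : CConvex φ) {x : M} {b : ℝ}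
    (h : ∀ y, D1T φ y - cost x y ≤ b) : φ x ≤ b := by
  obtain ⟨S, hS⟩ := hφ
  refine (hS x).2 ?_
  rintro _ ⟨p, hp, rfl⟩
  have h1 : p.1 ≤ D1T φ p.2 := D1_le_T fun x' => by
    have h2 : p.1 - cost x' p.2 ≤ φ x' := (hS x').1 ⟨p, hp, rfl⟩
    linarith only [h2]
  change p.1 - cost x p.2 ≤ b
  linarith only [h1, h p.2]

variable [CompactSpace M] [Nonempty M]

theorem K_mem {φ : M → ℝ} (hc : Continuous φ) (x y : M) :
    y ∈ cSubdiff φ x ↔ φ x + cost x y ≤ D1T φ y :=
  ⟨fun h => D1_le_T fun x' => by linarith only [h x'],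
    fun h x' => by linarith only [h, D1T_le hc x' y]⟩

theorem K_dual {φ : M → ℝ} (hφ : CConvex φ) (x y : M) :
    x ∈ cSubdiff (fun y => -D1T φ y) y ↔ y ∈ cSubdiff φ x := by
  have hc := (D1_lip_of_cconvex hφ).continuous
  rw [K_mem hc]
  constructor
  · intro h
    have h1 : φ x ≤ D1T φ y - cost x y := K_le hφ fun y' => by
      have h2 : -D1T φ y + cost y x - cost y' x ≤ -D1T φ y' := h y'
      rw [D1_cost_comm y x, D1_cost_comm y' x] at h2
      linarith only [h2]
    linarith only [h1]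
  · intro h y'
    change -D1T φ y + cost y x - cost y' x ≤ -D1T φ y'
    rw [D1_cost_comm y x, D1_cost_comm y' x]
    linarith only [h, D1T_le hc x y']

theorem K_nonempty {φ : M → ℝ} (hφ : CConvex φ) (x : M) : (cSubdiff φ x).Nonempty := by
  have hc := (D1_lip_of_cconvex hφ).continuous
  have hcx : Continuous fun y => D1T φ y - cost x y :=
    (D1T_lip hc).continuous.sub (D1_cost_cont.comp (continuous_const.prodMk continuous_id))
  obtain ⟨y, -, hy⟩ := isCompact_univ.exists_isMaxOn univ_nonempty hcx.continuousOn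
  have h1 : φ x ≤ D1T φ y - cost x y := K_le hφ fun y' => hy (mem_univ y')
  exact ⟨y, (K_mem hc x y).2 (by linarith only [h1])⟩

theorem K_neg_lip {φ : M → ℝ} (hc : Continuous φ) : D1Lip fun y => -D1T φ y := fun y y' => by
  have h := D1T_lip hc y' y
  rw [dist_comm] at h
  linarith only [h]

end metric

variable {M : Type*} [MetricSpace M] [CompactSpace M] [MeasurableSpace M] [BorelSpace M]

/-- the spreading inequality at a minimiser -/
theorem K_spread [Nonempty M] (μ ν : Measure M) [IsProbabilityMeasure μ] [IsProbabilityMeasure ν]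
    {φ : M → ℝ} (hl : D1Lip φ) (hmin : ∀ φ' : M → ℝ, D1Lip φ' → D1K μ ν φ ≤ D1K μ ν φ')
    {B : Set M} (hB : IsClosed B) : ν B ≤ μ {x | ∃ y ∈ B, y ∈ cSubdiff φ x} := by
  have hc := hl.continuous
  rcases B.eq_empty_or_nonempty with rfl | hne
  · simp
  have hle : ∀ t > 0, ν B ≤ μ (d3A φ B t) := fun t ht =>
    D1_var μ ν hl hmin hB hne (d3A_closed hc hB t) ht fun x y hy h =>
      ⟨y, hy, fun x' => by linarith only [h, D1T_le hc x' y]⟩
  have hlim := tendsto_measure_iInter_atTop (μ := μ)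
    (s := fun n : ℕ => d3A φ B (1 / ((n : ℝ) + 1)))
    (fun n => (d3A_closed hc hB _).measurableSet.nullMeasurableSet)
    (fun a b hab => d3A_mono φ B (Nat.one_div_le_one_div hab)) ⟨0, measure_ne_top _ _⟩
  rw [d3A_iInter hc hB] at hlim
  exact ge_of_tendsto' hlim fun n => hle _ Nat.one_div_pos_of_nat

theorem exists_potential₂ [Nonempty M] (μ ν : Measure M) [IsProbabilityMeasure μ]
    [IsProbabilityMeasure ν] :
    ∃ φ : M → ℝ, CConvex φ ∧
      (∀ B : Set M, IsClosed B → ν B ≤ μ {x | ∃ y ∈ B, y ∈ cSubdiff φ x}) ∧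
      ∀ A : Set M, IsClosed A → μ A ≤ ν {y | ∃ x ∈ A, y ∈ cSubdiff φ x} := by
  obtain ⟨φ₀, h0, hmin0⟩ := D1_exists_min μ ν
  have hc0 := h0.continuous
  have hu : ∀ x y : M, D1T φ₀ y - cost x y ≤ φ₀ x := fun x y => by
    linarith only [D1T_le hc0 x y]
  obtain ⟨φ, hφ, h1, h2⟩ := D1_sup (D1T φ₀) (fun y : M => y) hu
  have hl := D1_lip_of_cconvex hφ
  have hc := hl.continuous
  have hTc := (D1T_lip hc).continuous
  have hmin : ∀ φ' : M → ℝ, D1Lip φ' → D1K μ ν φ ≤ D1K μ ν φ' := by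
    intro φ' h'
    refine le_trans ?_ (hmin0 φ' h')
    have h3 := D1_int_le hc hc0 μ (a := 0) fun x => by
      rw [add_zero]; exact h2 x _ (hu x)
    have h4 := D1_int_le (D1T_lip hc0).continuous hTc ν (a := 0) fun y => by
      rw [add_zero]
      exact D1_le_T fun x => by linarith only [h1 x y]
    unfold D1K
    linarith only [h3, h4]
  refine ⟨φ, hφ, fun B hB => K_spread μ ν hl hmin hB, fun A hA => ?_⟩
  have hψ := K_neg_lip hc
  have hmin' : ∀ ψ' : M → ℝ, D1Lip ψ' → D1K ν μ (fun y => -D1T φ y) ≤ D1K ν μ ψ' := by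
    intro ψ' h'
    have hc' := h'.continuous
    have hφ' := K_neg_lip hc'
    have h3 := hmin _ hφ'
    have h4 := D1_int_le hc.neg (D1T_lip hψ.continuous).continuous μ (a := 0) fun x => by
      rw [add_zero]
      refine D1_le_T fun y => ?_
      have h5 := D1T_le hc x y
      rw [D1_cost_comm x y] at h5
      change -φ x ≤ _
      linarith only [h5]
    have h5 := D1_int_le hc'.neg (D1T_lip hφ'.continuous).continuous ν (a := 0) fun y => by
      rw [add_zero]
      refine D1_le_T fun x => ?_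
      have h6 := D1T_le hc' y x
      rw [D1_cost_comm y x] at h6
      change -ψ' y ≤ _
      linarith only [h6]
    unfold D1K at h3 ⊢
    simp only [Pi.neg_apply, integral_neg] at h3 h4 h5 ⊢
    linarith only [h3, h4, h5]
  have h6 := K_spread ν μ hψ hmin' hA
  simpa only [K_dual hφ] using h6

omit [MeasurableSpace M] [BorelSpace M] in
theorem exists_dual [Nonempty M] {φ : M → ℝ} (hφ : CConvex φ) :
    ∃ ψ : M → ℝ, CConvex ψ ∧ ∀ x y, x ∈ cSubdiff ψ y ↔ y ∈ cSubdiff φ x := by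
  refine ⟨fun y => -D1T φ y, K_cconvex fun y => ?_, K_dual hφ⟩
  have hc := (D1_lip_of_cconvex hφ).continuous
  have hcy : Continuous fun x => φ x + cost x y :=
    hc.add (D1_cost_cont.comp (continuous_id.prodMk continuous_const))
  obtain ⟨x, -, hx⟩ := isCompact_univ.exists_isMinOn univ_nonempty hcy.continuousOn
  exact ⟨x, (K_dual hφ x y).2 ((K_mem hc x y).2 (D1_le_T fun x' => hx (mem_univ x')))⟩

theorem equi₂ (m : Measure M) [IsFiniteMeasure m] (κ : ℝ≥0∞) (hκ : κ ≠ ⊤)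
    (hA : ∀ φ : M → ℝ, CConvex φ →
      (∀ B : Set M, IsClosed B → m B ≤ κ * m {x | ∃ y ∈ B, y ∈ cSubdiff φ x}) →
      (∀ A : Set M, IsClosed A → m A ≤ κ * m {y | ∃ x ∈ A, y ∈ cSubdiff φ x}) →
      ∀ x, (cSubdiff φ x).Subsingleton) {ε : ℝ} (hε : 0 < ε) :
    ∃ δ > 0, ∀ φ : M → ℝ, CConvex φ →
      (∀ B : Set M, IsClosed B → m B ≤ κ * m {x | ∃ y ∈ B, y ∈ cSubdiff φ x}) →
      (∀ A : Set M, IsClosed A → m A ≤ κ * m {y | ∃ x ∈ A, y ∈ cSubdiff φ x}) →
      ∀ a b y z : M, y ∈ cSubdiff φ a → z ∈ cSubdiff φ b → dist a b < δ → dist y z < ε := by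
  by_contra hcon
  have h0 : ∀ k : ℕ, ∃ φ : M → ℝ, CConvex φ ∧
      (∀ B : Set M, IsClosed B → m B ≤ κ * m {x | ∃ y ∈ B, y ∈ cSubdiff φ x}) ∧
      (∀ A : Set M, IsClosed A → m A ≤ κ * m {y | ∃ x ∈ A, y ∈ cSubdiff φ x}) ∧
      ∃ p : (M × M) × M × M, p.2.1 ∈ cSubdiff φ p.1.1 ∧ p.2.2 ∈ cSubdiff φ p.1.2 ∧
        dist p.1.1 p.1.2 < 1 / ((k : ℝ) + 1) ∧ ε ≤ dist p.2.1 p.2.2 := by
    intro k
    by_contra hk
    refine hcon ⟨1 / ((k : ℝ) + 1), by positivity, fun φ h1 h2 h2' a b y z hy hz hab => ?_⟩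
    by_contra h3
    exact hk ⟨φ, h1, h2, h2', ((a, b), y, z), hy, hz, hab, not_lt.1 h3⟩
  choose ψ hψ hm hm' p hy hz hab hyz using h0
  have : Nonempty M := ⟨(p 0).1.1⟩
  obtain ⟨φ, s, hφ, hs, hu⟩ := d3_subseq (p 0).1.1 ψ hψ
  obtain ⟨q, -, r, hr, hq⟩ := isCompact_univ.tendsto_subseq (x := fun k => p (s k))
    fun k => mem_univ _
  have hsr : Tendsto (fun k => s (r k)) atTop atTop := hs.tendsto_atTop.comp hr.tendsto_atTop
  have ha : Tendsto (fun k => (p (s (r k))).1.1) atTop (𝓝 q.1.1) := hq.fst_nhds.fst_nhds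
  have hb : Tendsto (fun k => (p (s (r k))).1.2) atTop (𝓝 q.1.2) := hq.fst_nhds.snd_nhds
  have hy' : Tendsto (fun k => (p (s (r k))).2.1) atTop (𝓝 q.2.1) := hq.snd_nhds.fst_nhds
  have hz' : Tendsto (fun k => (p (s (r k))).2.2) atTop (𝓝 q.2.2) := hq.snd_nhds.snd_nhds
  have e1 : q.1.1 = q.1.2 := by
    refine dist_le_zero.1 (le_of_tendsto_of_tendsto' (ha.dist hb)
      ((tendsto_one_div_add_atTop_nhds_zero_nat (𝕜 := ℝ)).comp hsr) fun k => (hab _).le)
  have e2 : ε ≤ dist q.2.1 q.2.2 := ge_of_tendsto' (hy'.dist hz') fun k => hyz _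
  have key : ∀ (a y : ℕ → M) (a₀ y₀ : M), Tendsto a atTop (𝓝 a₀) → Tendsto y atTop (𝓝 y₀) →
      (∀ k, y k ∈ cSubdiff (ψ (s (r k))) (a k)) → y₀ ∈ cSubdiff φ a₀ := by
    intro a y a₀ y₀ h1 h2 h3 x'
    have h4 : Tendsto (fun k => φ (a k) + cost (a k) (y k) - cost x' (y k)) atTop
        (𝓝 (φ a₀ + cost a₀ y₀ - cost x' y₀)) :=
      (((hφ.tendsto a₀).comp h1).add (d3_tendsto_cost h1 h2)).sub
        (d3_tendsto_cost tendsto_const_nhds h2)
    refine le_of_forall_pos_le_add fun t ht => le_of_tendsto h4 ?_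
    filter_upwards [hr.tendsto_atTop.eventually (hu (t / 2) (half_pos ht))] with k hk
    have h5 := h3 k x'
    have h6 := abs_le.1 (hk (a k))
    have h7 := abs_le.1 (hk x')
    linarith only [h5, h6.1, h7.2]
  have m1 : q.2.1 ∈ cSubdiff φ q.1.1 := key _ _ _ _ ha hy' fun k => hy _
  have m2 : q.2.2 ∈ cSubdiff φ q.1.1 := e1 ▸ key _ _ _ _ hb hz' fun k => hz _
  have hcc : CConvex φ := K_cconvex fun x => by
    have h1 : x ∈ ⋂ n : ℕ, d3A φ univ (1 / ((n : ℝ) + 1)) := mem_iInter.2 fun n => by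
      obtain ⟨k, hk⟩ := (hu (1 / ((n : ℝ) + 1) / 2) (by positivity)).exists
      obtain ⟨y, hy⟩ := K_nonempty (hψ (s k)) x
      exact d3A_near univ hk ⟨y, mem_univ _, hy⟩
    rw [d3A_iInter hφ isClosed_univ] at h1
    obtain ⟨y, -, hy⟩ := h1
    exact ⟨y, hy⟩
  have hH : ∀ B : Set M, IsClosed B → m B ≤ κ * m {x | ∃ y ∈ B, y ∈ cSubdiff φ x} := by
    intro B hB
    refine d3_pass m hκ hφ hB fun t ht => ?_
    obtain ⟨k, hk⟩ := (hu t ht).exists
    exact ⟨ψ (s k), ψ (s k) (p 0).1.1, hk, hm _ B hB⟩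
  have hH' : ∀ A : Set M, IsClosed A → m A ≤ κ * m {y | ∃ x ∈ A, y ∈ cSubdiff φ x} := by
    intro A hA
    have h1 := d3_pass m hκ (K_neg_lip hφ).continuous hA fun t ht => by
      obtain ⟨k, hk⟩ := (hu t ht).exists
      refine ⟨fun y => -D1T (ψ (s k)) y, -ψ (s k) (p 0).1.1, fun y => ?_, ?_⟩
      · have h2 := D1T_mono (φ' := φ) (D1_lip_of_cconvex (hψ (s k))).continuous
          (a := ψ (s k) (p 0).1.1 + t) (fun x => by linarith only [(abs_le.1 (hk x)).2]) y
        have h3 := D1T_mono (φ' := ψ (s k)) hφ (a := t - ψ (s k) (p 0).1.1)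
          (fun x => by linarith only [(abs_le.1 (hk x)).1]) y
        exact abs_le.2 ⟨by linarith only [h2], by linarith only [h3]⟩
      · simpa only [K_dual (hψ (s k))] using hm' _ A hA
    simpa only [K_dual hcc] using h1
  have e3 := hA φ hcc hH hH' _ m1 m2
  rw [e3, dist_self] at e2
  exact absurd hε (not_lt.2 e2)

end Vale.Agent.N234N

end
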