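import Vale.Agent.N234N.Core

/-! Block M: continuity of optimal transport when there is no flat focal face. -/

set_option maxSynthPendingDepth 3
set_option linter.unusedSectionVars false

open Bundle Manifold Set Filter MeasureTheory Module Metric
open scoped ContDiff Manifold Topology ENNReal

namespace Vale.Agent.N234N

open Vale.Agent.P234 Vale.Agent.N234

theorem M_mid {V : Type*} [NormedAddCommGroup V] [InnerProductSpace ℝ V] {u v : V} {r : ℝ}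
    (h1 : ‖u‖ = r) (h2 : ‖v‖ = r) (h3 : ‖(1 - 1 / 2 : ℝ) • u + (1 / 2 : ℝ) • v‖ = r) : u = v := by
  refine eq_of_norm_eq_of_norm_add_eq (h1.trans h2.symm) ?_
  rw [show (1 - 1 / 2 : ℝ) = 1 / 2 by norm_num, ← smul_add, norm_smul,
    Real.norm_of_nonneg (by norm_num)] at h3
  linarith only [h1, h2, h3]

section measure

variable {M : Type*} [MetricSpace M] [CompactSpace M] [MeasurableSpace M] [BorelSpace M]

/-- The subdifferential of `φ` shrinks `m` by at most the factor `κ`. -/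
def MSpread (m : Measure M) (κ : ℝ≥0∞) (φ : M → ℝ) : Prop :=
  ∀ A : Set M, IsClosed A → m A ≤ κ * m {y | ∃ x ∈ A, y ∈ cSubdiff φ x}

theorem M_smul (m : Measure M) {a b : ℝ≥0∞} (h : a ≤ b) : a • m ≤ b • m := fun s => by
  simp only [Measure.smul_apply, smul_eq_mul]
  gcongr

theorem M_le {m μ ν : Measure M} {a b : ℝ≥0∞} (ha : a ≠ 0) (ha' : a ≠ ⊤) (hμ : μ ≤ b • m)
    (hν : a • m ≤ ν) {B C : Set M} (H : ν B ≤ μ C) : m B ≤ a⁻¹ * b * m C := by
  have h1 := (hν B).trans (H.trans (hμ _))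
  simp only [Measure.smul_apply, smul_eq_mul] at h1
  rw [mul_assoc]
  calc m B = a⁻¹ * (a * m B) := by rw [← mul_assoc, ENNReal.inv_mul_cancel ha ha', one_mul]
    _ ≤ _ := by gcongr

theorem M_map [Nonempty M] {m : Measure M}
    (hA : ∀ κ : ℝ≥0∞, κ ≠ ⊤ → ∀ φ : M → ℝ, CConvex φ → Spread m κ φ → MSpread m κ φ →
      ∀ x, (cSubdiff φ x).Subsingleton)
    {a b : ℝ≥0∞} (ha : a ≠ 0) (ha' : a ≠ ⊤) (hb : b ≠ ⊤) (μ ν : Measure M)
    [IsProbabilityMeasure μ] [IsProbabilityMeasure ν] (hμ' : a • m ≤ μ) (hμ : μ ≤ b • m)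
    (hν : a • m ≤ ν) (hν' : ν ≤ b • m) :
    ∃ (φ : M → ℝ) (S : M → M), CConvex φ ∧ Spread m (a⁻¹ * b) φ ∧ MSpread m (a⁻¹ * b) φ ∧
      (∀ x, cSubdiff φ x = {S x}) ∧ Continuous S ∧ IsOnlyPlan μ ν S := by
  obtain ⟨φ, hφ, H, H'⟩ := exists_potential₂ μ ν
  have hs : Spread m (a⁻¹ * b) φ := fun B hB => M_le ha ha' hμ hν (H B hB)
  have hs' : MSpread m (a⁻¹ * b) φ := fun A hA => M_le ha ha' hν' hμ' (H' A hA)
  have h1 := hA _ (ENNReal.mul_ne_top (ENNReal.inv_ne_top.2 ha) hb) φ hφ hs hs'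
  choose S hS using fun x => Reg.CConvex.nonempty hφ x
  have h2 : ∀ x, cSubdiff φ x = {S x} := fun x => (h1 x).eq_singleton_of_mem (hS x)
  exact ⟨φ, S, hφ, hs, hs', h2, plan_of_potential μ ν (Reg.CConvex.continuous hφ) h2 H⟩

theorem M_tcp [Nonempty M] {m : Measure M} [IsFiniteMeasure m]
    (hA : ∀ κ : ℝ≥0∞, κ ≠ ⊤ → ∀ φ : M → ℝ, CConvex φ → Spread m κ φ → MSpread m κ φ →
      ∀ x, (cSubdiff φ x).Subsingleton) : TransportContinuity m := by
  intro ρ₀ ρ₁ h₀ h₁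
  obtain ⟨p₀, ⟨a₀, b₀, ha₀, ha₀', hb₀, l₀, u₀⟩, i₀⟩ := h₀.facts
  obtain ⟨p₁, ⟨a₁, b₁, ha₁, -, hb₁, l₁, u₁⟩, -⟩ := h₁.facts
  obtain ⟨φ, S, -, -, -, -, hS, hP⟩ := M_map hA (a := min a₀ a₁) (b := max b₀ b₁)
    (lt_min (pos_iff_ne_zero.2 ha₀) (pos_iff_ne_zero.2 ha₁)).ne'
    ((min_le_left _ _).trans_lt ha₀'.lt_top).ne (max_lt hb₀.lt_top hb₁.lt_top).ne _ _
    ((M_smul m (min_le_left _ _)).trans l₀) (u₀.trans (M_smul m (le_max_left _ _)))
    ((M_smul m (min_le_right _ _)).trans l₁) (u₁.trans (M_smul m (le_max_right _ _)))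
  have key := fun (T : M → M) (hT : IsTransport m ρ₀ ρ₁ T) =>
    hP.2 _ ((graph_plan measurable_id hT.1).1.trans Measure.map_id)
      ((graph_plan measurable_id hT.1).2.1.trans hT.2)
  refine ⟨⟨S, ⟨hS.measurable, hP.1⟩, fun T hT => ?_⟩, fun T hT => ⟨S, hS, ?_⟩⟩
  · have h1 := (key T hT).1
    rwa [(graph_plan measurable_id hT.1).2.2, i₀, i₀] at h1
  · have h1 := (key T hT.1).2 (by
      rw [(graph_plan measurable_id hT.1.1).2.2, i₀, i₀]
      exact hT.2 S ⟨hS.measurable, hP.1⟩)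
    have h2 := ae_of_ae_map (measurable_id.prodMk hT.1.1).aemeasurable h1
    exact ((Measure.absolutelyContinuous_smul ha₀).trans l₀.absolutelyContinuous).ae_le h2

theorem M_modulus {m : Measure M} [IsFiniteMeasure m] {κ : ℝ≥0∞} (hκ : κ ≠ ⊤)
    (hA : ∀ φ : M → ℝ, CConvex φ → Spread m κ φ → MSpread m κ φ →
      ∀ x, (cSubdiff φ x).Subsingleton) :
    ∃ w : ℝ → ℝ, Tendsto w (𝓝 0) (𝓝 0) ∧ ∀ φ : M → ℝ, CConvex φ → Spread m κ φ →
      MSpread m κ φ →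
      ∀ a b y z : M, y ∈ cSubdiff φ a → z ∈ cSubdiff φ b → dist y z ≤ w (dist a b) := by
  set W : ℝ → Set ℝ := fun r => {d | ∃ (φ : M → ℝ) (a b y z : M), CConvex φ ∧ Spread m κ φ ∧
    MSpread m κ φ ∧ y ∈ cSubdiff φ a ∧ z ∈ cSubdiff φ b ∧ dist a b = r ∧ dist y z = d} with hW
  refine ⟨fun r => sSup (W r), Metric.tendsto_nhds_nhds.2 fun ε hε => ?_,
    fun φ h1 h2 h2' a b y z hy hz => le_csSup ⟨diam (univ : Set M), ?_⟩
      ⟨φ, a, b, y, z, h1, h2, h2', hy, hz, rfl, rfl⟩⟩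
  · obtain ⟨δ, hδ, h⟩ := equi₂ m κ hκ hA (half_pos hε)
    refine ⟨δ, hδ, fun r hr => ?_⟩
    rw [Real.dist_eq, sub_zero] at hr ⊢
    have h1 : sSup (W r) ≤ ε / 2 := Real.sSup_le (by
      rintro _ ⟨φ, a, b, y, z, h1, h2, h2', hy, hz, rfl, rfl⟩
      exact (h φ h1 h2 h2' a b y z hy hz ((le_abs_self _).trans_lt hr)).le) (half_pos hε).le
    have h2 : 0 ≤ sSup (W r) := Real.sSup_nonneg (by
      rintro _ ⟨φ, a, b, y, z, -, -, -, -, -, -, rfl⟩
      exact dist_nonneg)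
    rw [abs_of_nonneg h2]
    linarith
  · rintro _ ⟨φ, a, b, y, z, -, -, -, -, -, -, rfl⟩
    exact dist_le_diam_of_mem isCompact_univ.isBounded (mem_univ _) (mem_univ _)

end measure

variable {E : Type*} [NormedAddCommGroup E] [NormedSpace ℝ E] [FiniteDimensional ℝ E]
  {M : Type*} [MetricSpace M] [ChartedSpace E M]
  [RiemannianBundle (fun x : M => TangentSpace 𝓘(ℝ, E) x)]
  [IsManifold 𝓘(ℝ, E) ∞ M]
  [IsContMDiffRiemannianBundle 𝓘(ℝ, E) ∞ E (fun x : M => TangentSpace 𝓘(ℝ, E) x)]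
  [CompactSpace M]
  {e : ∀ x : M, TangentSpace 𝓘(ℝ, E) x → M}

variable [MeasurableSpace M] [BorelSpace M]

theorem noFocalFace_of_nonfocal (F : Facts e) (h : Nonfocal e) : NoFocalFace e :=
  fun y v _ _ _ hp =>
    hp.2.1 (mem_injDomain_of_unique F hp.1 hp.2.2 (inj_of_not_conj F (h y v hp.1)))

theorem noFocalFace_of_strict (F : Facts e)
    (h : ∀ y : M, StrictConvex ℝ (closure (injDomain e y))) : NoFocalFace e := by
  intro y v w hne hs
  exfalso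
  have h1 : ∀ u ∈ segMin e y, u ∈ closure (injDomain e y) := by
    intro u hu
    have h2 : Tendsto (fun t : ℝ => t • u) (𝓝[<] 1) (𝓝 u) := by
      have h3 : Tendsto (fun t : ℝ => t • u) (𝓝 1) (𝓝 ((1 : ℝ) • u)) :=
        (continuous_id.smul continuous_const).tendsto 1
      rw [one_smul] at h3
      exact h3.mono_left nhdsWithin_le_nhds
    refine mem_closure_of_tendsto h2 ?_
    filter_upwards [Ioo_mem_nhdsLT (zero_lt_one' ℝ)] with t ht
    exact smul_mem_injDomain F.isExp hu ht.1.le ht.2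
  have h2 : closure (injDomain e y) ⊆ segMin e y :=
    closure_minimal (injDomain_subset_segMin F.isExp y) (isClosed_eq
      (continuous_const.dist (contMDiff_exp_fiber F.isExp y).continuous) continuous_norm)
  have h3 := h y (h1 v (hs v (left_mem_segment ℝ v w)).1) (h1 w (hs w (right_mem_segment ℝ v w)).1)
    hne (a := 1 / 2) (b := 1 / 2) (by norm_num) (by norm_num) (by norm_num)
  have h4 : (1 / 2 : ℝ) • v + (1 / 2 : ℝ) • w ∈ segment ℝ v w :=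
    ⟨1 / 2, 1 / 2, by norm_num, by norm_num, by norm_num, rfl⟩
  generalize (1 / 2 : ℝ) • v + (1 / 2 : ℝ) • w = u at h3 h4
  have h5 : Tendsto (fun t : ℝ => t • u) (𝓝[>] 1) (𝓝 u) := by
    have h6 : Tendsto (fun t : ℝ => t • u) (𝓝 1) (𝓝 ((1 : ℝ) • u)) :=
      (continuous_id.smul continuous_const).tendsto 1
    rw [one_smul] at h6
    exact h6.mono_left nhdsWithin_le_nhds
  obtain ⟨a, ha, ha1⟩ := ((h5.eventually (mem_interior_iff_mem_nhds.1 h3)).and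
    self_mem_nhdsWithin).exists
  exact (hs u h4).2 ((mem_injDomain_iff F.isExp).2 ⟨a, ha1, h2 ha⟩)

theorem main_nonfocal [Nonempty M] (F : Facts e) (hW : WeakMTW e) (hN : NoFocalFace e) :
    IsFiniteMeasure (μHE[finrank ℝ E] : Measure M) ∧
    (μHE[finrank ℝ E] : Measure M).IsOpenPosMeasure ∧
    TransportContinuity (μHE[finrank ℝ E] : Measure M) ∧
    ∀ a b : ℝ≥0∞, a ≠ 0 → b ≠ ⊤ → ∃ w : ℝ → ℝ, Tendsto w (𝓝 0) (𝓝 0) ∧
      ∀ μ ν : Measure M, IsProbabilityMeasure μ → IsProbabilityMeasure ν →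
        a • μHE[finrank ℝ E] ≤ μ → μ ≤ b • μHE[finrank ℝ E] →
        a • μHE[finrank ℝ E] ≤ ν → ν ≤ b • μHE[finrank ℝ E] → ∃ S : M → M, IsHomeomorph S ∧
          (∀ x x', dist (S x) (S x') ≤ w (dist x x')) ∧ IsOnlyPlan μ ν S ∧
          ∀ x, ∃! v : TangentSpace 𝓘(ℝ, E) x, dist x (e x v) = ‖v‖ ∧ e x v = S x := by
  have hL : LoeperMax e := ((Reg.tfae F).out 0 1).1 hW
  have hfin := vol_finite F
  have hpos := vol_openPos F
  have hA : ∀ κ : ℝ≥0∞, κ ≠ ⊤ → ∀ φ : M → ℝ, CConvex φ → Spread μHE[finrank ℝ E] κ φ →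
      MSpread μHE[finrank ℝ E] κ φ → ∀ x, (cSubdiff φ x).Subsingleton := by
    intro κ hκ φ hφ H H' x y hy y' hy'
    obtain ⟨ψ, hψ, hd⟩ := exists_dual hφ
    exact contact_single F hW hN hψ hκ (fun B hB => by simpa only [hd] using H' B hB)
      (fun A hA => by simpa only [hd] using H A hA) ((hd x y).2 hy) ((hd x y').2 hy')
  refine ⟨hfin, hpos, M_tcp hA, fun a b ha hb => ?_⟩
  have hκ : a⁻¹ * b ≠ ⊤ := ENNReal.mul_ne_top (ENNReal.inv_ne_top.2 ha) hb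
  obtain ⟨w, hw, h⟩ := M_modulus hκ (hA _ hκ)
  refine ⟨w, hw, fun μ ν _ _ hμ' hμ hν hν' => ?_⟩
  have ha' : a ≠ ⊤ := by
    rintro rfl
    have h1 := hν univ
    rw [Measure.smul_apply, smul_eq_mul,
      ENNReal.top_mul (isOpen_univ.measure_ne_zero _ univ_nonempty), measure_univ] at h1
    exact absurd h1 (by simp)
  obtain ⟨φ, S, h1, h2, h2', h3, h4, h5⟩ := M_map hA ha ha' hb μ ν hμ' hμ hν hν'
  refine ⟨S, ?_, fun x x' => h φ h1 h2 h2' x x' _ _ (h3 x ▸ rfl) (h3 x' ▸ rfl), h5, fun x => ?_⟩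
  · obtain ⟨ψ, T, -, -, -, -, g4, g5⟩ := M_map hA ha ha' hb ν μ hν hν' hμ' hμ
    have := Measure.isOpenPosMeasure_smul (μHE[finrank ℝ E] : Measure M) ha
    have := hν.isOpenPosMeasure
    have := hμ'.isOpenPosMeasure
    exact isHomeomorph_iff_exists_inverse.2
      ⟨h4, T, right_inverse g4 h4 g5 h5, right_inverse h4 g4 h5 g5, g4⟩
  · obtain ⟨v, hv, hd⟩ := F.hopfRinow x (S x)
    refine ⟨v, ⟨by rw [hv, hd], hv⟩, fun u hu => ?_⟩
    obtain ⟨k1, k2⟩ := hL x u v (1 / 2) hu.1 (by rw [hv, hd]) (by norm_num) (by norm_num)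
    have k3 : S x ∈ cSubdiff φ x := h3 x ▸ rfl
    have k4 : e x ((1 - 1 / 2 : ℝ) • u + (1 / 2 : ℝ) • v) ∈ cSubdiff φ x := fun x' => by
      have k5 := k2 x'
      rw [hu.2, hv, max_self] at k5
      linarith only [k5, k3 x']
    rw [h3, mem_singleton_iff] at k4
    rw [k4] at k1
    exact M_mid (r := dist x (S x)) (by rw [← hu.1, hu.2]) hd.symm k1.symm

end Vale.Agent.N234N
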